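import Vale.Agent.P214.CST.Blow

/-! **Regularity from the support**: if, near a point `p` of its support, the support of a
stationary integral `m`-varifold is contained in a smooth embedded `m`-dimensional submanifold, then
`p` is a regular point. -/

open MeasureTheory Set Filter Topology Metric
open scoped ENNReal NNReal ContDiff RealInnerProductSpace

set_option linter.unusedSectionVars false

namespace Vale.Agent.P214.CST

open Vale.Agent.P214

variable {E : Type*} [NormedAddCommGroup E] [InnerProductSpace ℝ E] [FiniteDimensional ℝ E]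
  [MeasurableSpace E] [BorelSpace E]

namespace Patch

variable {m : ℕ} {S W' U : Set E} (P : Patch m S W') (V : IntegralVarifold m U)

lemma measurableSet_nb (s : ℝ) : MeasurableSet (S ∩ P.nb s) := by
  have hc : ContinuousOn (fun y => P.i (P.κ y) - y) (P.nb s) := fun y hy =>
    ((((P.contDiffAt_i (P.maps_κ y (P.nb_subset s hy))).continuousAt.comp
      (P.contDiffAt_κ (P.nb_subset s hy)).continuousAt)).sub continuousAt_id).continuousWithinAt
  have h1 : IsOpen (P.nb s ∩ (fun y => P.i (P.κ y) - y) ⁻¹' {0}ᶜ) :=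
    hc.isOpen_inter_preimage (P.isOpen_nb s) isClosed_singleton.isOpen_compl
  have h2 : S ∩ P.nb s = P.nb s \ (P.nb s ∩ (fun y => P.i (P.κ y) - y) ⁻¹' {0}ᶜ) := by
    ext y
    constructor
    · rintro ⟨hy1, hy2⟩
      refine ⟨hy2, fun h => h.2 ?_⟩
      have := P.right_inv y ⟨hy1, P.nb_subset s hy2⟩
      show P.i (P.κ y) - y ∈ ({0} : Set E)
      rw [this, sub_self]; rfl
    · rintro ⟨hy1, hy2⟩
      refine ⟨?_, hy1⟩
      have h3 : P.i (P.κ y) - y = 0 := by
        by_contra hne
        exact hy2 ⟨hy1, hne⟩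
      have h4 := (P.maps_i _ (P.maps_κ y (P.nb_subset s hy1))).1
      rwa [sub_eq_zero.1 h3] at h4
  rw [h2]
  exact (P.isOpen_nb s).measurableSet.diff h1.measurableSet

/-- transfer of null sets -/
lemma null_of_weight_null {s c : ℝ} (hs : s < P.ρ) (hc0 : 0 < c)
    (hc : V.weight.restrict (P.nb s)
      = (((μH[m] : Measure (EuclideanSpace ℝ (Fin m))).restrict (ball 0 s)).withDensity
          (fun x => ENNReal.ofReal (c * P.jac x))).map P.i)
    {N : Set E} (hN : V.weight N = 0) : (μH[m] : Measure E) (N ∩ (S ∩ P.nb s)) = 0 := by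
  obtain ⟨N', hNN', hN'm, hN'0⟩ := exists_measurable_superset_of_null hN
  have hi := P.aemeasurable_i hs.le
  have hjm : AEMeasurable (fun x => ENNReal.ofReal (c * P.jac x))
      ((μH[m] : Measure (EuclideanSpace ℝ (Fin m))).restrict (ball 0 s)) := by
    refine ENNReal.measurable_ofReal.comp_aemeasurable ?_
    refine ContinuousOn.aemeasurable (fun x hx => ?_) measurableSet_ball
    exact (continuousAt_const.mul (P.contDiffAt_jac
      (ball_subset_ball hs.le hx)).continuousAt).continuousWithinAt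
  have hi' : AEMeasurable P.i
      (((μH[m] : Measure (EuclideanSpace ℝ (Fin m))).restrict (ball 0 s)).withDensity
        (fun x => ENNReal.ofReal (c * P.jac x))) :=
    hi.mono_ac (withDensity_absolutelyContinuous _ _)
  have h1 : V.weight.restrict (P.nb s) N' = 0 :=
    le_antisymm ((Measure.restrict_apply_le _ _).trans hN'0.le) bot_le
  rw [hc, Measure.map_apply_of_aemeasurable hi' hN'm] at h1
  have hne : ∀ᵐ x ∂((μH[m] : Measure (EuclideanSpace ℝ (Fin m))).restrict (ball 0 s)),
      ENNReal.ofReal (c * P.jac x) ≠ 0 := by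
    filter_upwards [ae_restrict_mem measurableSet_ball] with x hx
    have : 0 < c * P.jac x := mul_pos hc0 (P.jac_pos (ball_subset_ball hs.le hx))
    exact (ENNReal.ofReal_pos.2 this).ne'
  have h2 := withDensity_absolutelyContinuous' hjm hne h1
  rw [Measure.restrict_apply' measurableSet_ball] at h2
  refine measure_mono_null ?_ (P.image_null h2)
  rintro y ⟨hyN, hyS, hyn⟩
  have hyx := P.right_inv y ⟨hyS, P.nb_subset s hyn⟩
  refine ⟨P.κ y, ⟨⟨?_, hyn.2⟩, P.maps_κ y (P.nb_subset s hyn)⟩, hyx⟩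
  show P.i (P.κ y) ∈ N'
  rw [hyx]
  exact hNN' hyN

/-- positivity of the weight near points of `S` -/
lemma weight_pos {s c : ℝ} (hs : s < P.ρ) (hc0 : 0 < c)
    (hc : V.weight.restrict (P.nb s)
      = (((μH[m] : Measure (EuclideanSpace ℝ (Fin m))).restrict (ball 0 s)).withDensity
          (fun x => ENNReal.ofReal (c * P.jac x))).map P.i)
    {y : E} (hy : y ∈ S ∩ P.nb s) {N : Set E} (hN : N ∈ 𝓝 y) : 0 < V.weight N := by
  obtain ⟨B, hBN, hBo, hyB⟩ := _root_.mem_nhds_iff.1 hN
  refine lt_of_lt_of_le ?_ (measure_mono hBN)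
  rw [pos_iff_ne_zero]
  intro h0
  have hi := P.aemeasurable_i hs.le
  have hjm : AEMeasurable (fun x => ENNReal.ofReal (c * P.jac x))
      ((μH[m] : Measure (EuclideanSpace ℝ (Fin m))).restrict (ball 0 s)) := by
    refine ENNReal.measurable_ofReal.comp_aemeasurable ?_
    refine ContinuousOn.aemeasurable (fun x hx => ?_) measurableSet_ball
    exact (continuousAt_const.mul (P.contDiffAt_jac
      (ball_subset_ball hs.le hx)).continuousAt).continuousWithinAt
  have hi' : AEMeasurable P.i
      (((μH[m] : Measure (EuclideanSpace ℝ (Fin m))).restrict (ball 0 s)).withDensity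
        (fun x => ENNReal.ofReal (c * P.jac x))) :=
    hi.mono_ac (withDensity_absolutelyContinuous _ _)
  have h1 : V.weight.restrict (P.nb s) B = 0 :=
    le_antisymm ((Measure.restrict_apply_le _ _).trans h0.le) bot_le
  rw [hc, Measure.map_apply_of_aemeasurable hi' hBo.measurableSet] at h1
  have hne : ∀ᵐ x ∂((μH[m] : Measure (EuclideanSpace ℝ (Fin m))).restrict (ball 0 s)),
      ENNReal.ofReal (c * P.jac x) ≠ 0 := by
    filter_upwards [ae_restrict_mem measurableSet_ball] with x hx
    have : 0 < c * P.jac x := mul_pos hc0 (P.jac_pos (ball_subset_ball hs.le hx))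
    exact (ENNReal.ofReal_pos.2 this).ne'
  have h2 := withDensity_absolutelyContinuous' hjm hne h1
  rw [Measure.restrict_apply' measurableSet_ball, inter_comm] at h2
  have h3 : IsOpen (ball (0 : EuclideanSpace ℝ (Fin m)) s ∩ P.i ⁻¹' B) :=
    (P.smooth_i.continuousOn.mono (ball_subset_ball hs.le)).isOpen_inter_preimage isOpen_ball hBo
  have h4 : (ball (0 : EuclideanSpace ℝ (Fin m)) s ∩ P.i ⁻¹' B).Nonempty := by
    refine ⟨P.κ y, hy.2.2, ?_⟩
    show P.i (P.κ y) ∈ B
    rw [P.right_inv y ⟨hy.1, P.nb_subset s hy.2⟩]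
    exact hyB
  exact (h3.measure_pos _ h4).ne' h2

end Patch

/-- **Constancy theorem and regularity**: if, near a point `p` of its support, the support of a
stationary integral `m`-varifold `V` is contained in a smooth embedded `m`-dimensional submanifold,
then `p` is a regular point of `V`. -/
theorem regular_of_spt_subset {m : ℕ} {U : Set E} (hU : IsOpen U) (V : IntegralVarifold m U)
    (hst : V.IsStationary) {p : E} (hp : p ∈ V.spt) {W S : Set E} (hW : W ∈ 𝓝 p)
    (hS : IsSmoothSubmanifold m S) (hsub : V.spt ∩ W ⊆ S) : V.IsRegular p := by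
  have hpS : p ∈ S := hsub ⟨hp, mem_of_mem_nhds hW⟩
  obtain ⟨r0, hr0, hball⟩ := Metric.nhds_basis_closedBall.mem_iff.1 (hU.mem_nhds hp.1)
  obtain ⟨W', hpW', hW'sub, P, hκp⟩ := exists_patch hS hpS
    (inter_mem hW (ball_mem_nhds p hr0))
  have hW'ball : W' ⊆ closedBall p r0 := fun y hy => ball_subset_closedBall (hW'sub hy).2
  have hW'U : W' ⊆ U := hW'ball.trans hball
  have hsub' : V.spt ∩ W' ⊆ S := fun y hy => hsub ⟨hy.1, (hW'sub hy.2).1⟩
  have hfin : V.weight W' ≠ ⊤ := ((measure_mono hW'ball).trans_lt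
    (V.locFinite _ hball (isCompact_closedBall p r0))).ne
  set s := P.ρ / 2 with hs_def
  have hs0 : 0 < s := by have := P.hρ; positivity
  have hs : s < P.ρ := by have := P.hρ; rw [hs_def]; linarith
  obtain ⟨c, hc⟩ := P.exists_weight V hst hW'U hsub' hfin hs
  set W₂ := P.nb s with hW₂
  have hW₂o : IsOpen W₂ := P.isOpen_nb s
  have hW₂W' : W₂ ⊆ W' := P.nb_subset s
  have hW₂U : W₂ ⊆ U := hW₂W'.trans hW'U
  have hpW₂ : p ∈ W₂ := by
    refine ⟨hpW', ?_⟩
    show P.κ p ∈ ball 0 s
    rw [hκp]; exact mem_ball_self hs0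
  have hpos : 0 < V.weight W₂ := hp.2 _ (hW₂o.mem_nhds hpW₂)
  -- positivity of the constant
  have hc0 : 0 < c := by
    by_contra hle
    push Not at hle
    have h1 : (fun x => ENNReal.ofReal (c * P.jac x)) = fun _ => 0 := by
      funext x
      exact ENNReal.ofReal_eq_zero.2 (mul_nonpos_of_nonpos_of_nonneg hle (P.jac_nonneg x))
    rw [h1, withDensity_const, zero_smul, Measure.map_zero] at hc
    rw [← Measure.restrict_apply_self, hc] at hpos
    simp at hpos
  -- the multiplicity
  have hmult := P.mult_eq V hW'U hsub' hs hc0.le hc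
  obtain ⟨q, hq⟩ : ∃ q : ℕ, (q : ℝ) = c := by
    have hne : (ae (V.weight.restrict W₂)).NeBot := by
      refine ae_neBot.2 fun h0 => ?_
      rw [← Measure.restrict_apply_self, h0] at hpos
      simp at hpos
    have h1 : ∀ᵐ y ∂V.weight.restrict W₂, (V.mult y : ℝ) = c := by
      filter_upwards [ae_restrict_of_ae hmult, ae_restrict_mem hW₂o.measurableSet] with y h hy
      exact h hy
    obtain ⟨y, hy⟩ := h1.exists
    exact ⟨_, hy⟩
  have hq1 : 1 ≤ q := by
    have : (0:ℝ) < q := by rw [hq]; exact hc0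
    exact_mod_cast this
  have hSm : MeasurableSet (S ∩ W₂) := P.measurableSet_nb s
  -- the density is `q`
  have hdq : ∀ᵐ y ∂((μH[m] : Measure E).restrict (S ∩ W₂)), dens V y = q := by
    have h1 : ∀ᵐ y ∂V.weight, y ∈ W₂ → dens V y = q := by
      filter_upwards [hmult, V.ae_mem_carrier] with y hy hyc hyn
      have h2 : (V.mult y : ℝ) = q := by rw [hy hyn, hq]
      unfold dens
      rw [Set.indicator_of_mem hyc]
      exact_mod_cast h2
    have h2 : V.weight {y | ¬ (y ∈ W₂ → dens V y = q)} = 0 := h1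
    have h3 := P.null_of_weight_null V hs hc0 hc h2
    rw [ae_iff, Measure.restrict_apply' hSm]
    refine measure_mono_null ?_ h3
    rintro y ⟨hy1, hy2⟩
    refine ⟨?_, hy2⟩
    intro h4
    exact hy1 (h4 hy2.2)
  -- the weight
  have hres : V.weight.restrict W₂ = (q : ℝ≥0∞) • (μH[m] : Measure E).restrict (S ∩ W₂) := by
    have h0 : V.weight (W₂ \ S) = 0 := by
      refine measure_mono_null ?_ (weight_diff_spt_null (V := V) hW₂U)
      rintro y ⟨hy1, hy2⟩
      exact ⟨hy1, fun h => hy2 (hsub' ⟨h, hW₂W' hy1⟩)⟩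
    have h1 : V.weight.restrict W₂ = V.weight.restrict (S ∩ W₂) := by
      refine Measure.restrict_congr_set ?_
      have h2 : S ∩ W₂ = W₂ \ (W₂ \ S) := by
        ext y; simp only [mem_inter_iff, Set.mem_sdiff, not_and, not_not]; tauto
      rw [h2]
      exact (sdiff_null_ae_eq_self h0).symm
    rw [h1, weight_eq_withDensity, restrict_withDensity hSm, withDensity_congr_ae hdq,
      withDensity_const]
  -- the support
  have hspt : V.spt ∩ W₂ = S ∩ W₂ := by
    ext y
    constructor
    · rintro ⟨hy, hyW⟩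
      exact ⟨hsub' ⟨hy, hW₂W' hyW⟩, hyW⟩
    · rintro ⟨hy, hyW⟩
      exact ⟨⟨hW₂U hyW, fun N hN => P.weight_pos V hs hc0 hc ⟨hy, hyW⟩ hN⟩, hyW⟩
  refine ⟨W₂, S ∩ W₂, q, hW₂o, hpW₂, hW₂U, hspt, isSmoothSubmanifold_inter hS hW₂o, ?_, hq1, hres⟩
  -- minimality
  intro X hX
  have hXU : IsTestField U X := ⟨hX.1, hX.2.1, hX.2.2.trans hW₂U⟩
  have h1 := hst X hXU
  have hoff : ∀ y, y ∉ W₂ → fderiv ℝ X y = 0 := fun y hy => by
    by_contra hne
    exact hy (hX.2.2 (support_fderiv_subset ℝ hne))
  have hoff' : ∀ y, y ∉ W₂ → ∀ T : Submodule ℝ E, divAlong T X y = 0 := fun y hy T => by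
    unfold divAlong
    rw [hoff y hy]; simp
  have h2 : ∫ y in S ∩ W₂, divAlong (tanSpace (S ∩ W₂) y) X y ∂μH[m]
      = ∫ y in S ∩ W₂, divAlong (P.tan (P.κ y)) X y ∂μH[m] := by
    refine setIntegral_congr_fun hSm fun y hy => ?_
    have h3 : tanSpace (S ∩ W₂) y = tanSpace S y := by
      unfold tanSpace
      rw [tangentConeAt_inter_nhds (hW₂o.mem_nhds hy.2)]
    show divAlong (tanSpace (S ∩ W₂) y) X y = _
    rw [h3, P.tanSpace_eq ⟨hy.1, hW₂W' hy.2⟩]
  have h3 : ∫ y, divAlong (P.tan (P.κ y)) X y ∂(V.weight.restrict W₂) = 0 := by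
    rw [← h1, ← setIntegral_eq_integral_of_forall_compl_eq_zero (s := W₂)
        (f := fun y => divAlong (V.tangent y) X y)
        (fun y hy => hoff' y hy _)]
    refine integral_congr_ae ?_
    filter_upwards [ae_restrict_of_ae (P.tangent_ae V hW'U hsub'),
      ae_restrict_mem hW₂o.measurableSet] with y hy hyW
    rw [hy (hW₂W' hyW)]
  rw [hres, integral_smul_measure, ENNReal.toReal_natCast, smul_eq_mul] at h3
  rw [h2]
  have hqR : (q : ℝ) ≠ 0 := by exact_mod_cast (by omega : q ≠ 0)
  exact (mul_eq_zero.1 h3).resolve_left hqR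

end Vale.Agent.P214.CST
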