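import Vale.Agent.P214.CST.Dens

/-! Blow-up of the area measure of a patch; the multiplicity is the density constant. -/

open MeasureTheory Set Filter Topology Metric
open scoped ENNReal NNReal ContDiff RealInnerProductSpace

set_option linter.unusedSectionVars false

namespace Vale.Agent.P214.CST

open Vale.Agent.P214

variable {E : Type*} [NormedAddCommGroup E] [InnerProductSpace ℝ E] [FiniteDimensional ℝ E]
  [MeasurableSpace E] [BorelSpace E]

/-- the Hausdorff measure on the range of an injective linear map -/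
lemma restrict_range_eq {m : ℕ} (A : EuclideanSpace ℝ (Fin m) →L[ℝ] E) {T : Submodule ℝ E}
    (hT : LinearMap.range A.toLinearMap = T) :
    (μH[m] : Measure E).restrict (T : Set E)
      = ENNReal.ofReal A.toLinearMap.normDet •
        (μH[m] : Measure (EuclideanSpace ℝ (Fin m))).map A := by
  refine Measure.ext fun B hB => ?_
  have hfr : ((Module.finrank ℝ (EuclideanSpace ℝ (Fin m)) : ℕ) : ℝ) = m := by simp
  have h1 := A.toLinearMap.hausdorffMeasure_image (A ⁻¹' B)
  rw [hfr] at h1
  rw [Measure.restrict_apply hB, Measure.smul_apply,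
    Measure.map_apply A.continuous.measurable hB, smul_eq_mul, ← h1]
  congr 1
  ext y
  constructor
  · rintro ⟨hy1, hy2⟩
    have hy3 : y ∈ LinearMap.range A.toLinearMap := by rw [hT]; exact hy2
    obtain ⟨x, rfl⟩ := hy3
    exact ⟨x, hy1, rfl⟩
  · rintro ⟨x, hx, rfl⟩
    exact ⟨hx, by rw [← hT]; exact ⟨x, rfl⟩⟩

lemma integral_range_eq {m : ℕ} (A : EuclideanSpace ℝ (Fin m) →L[ℝ] E) {T : Submodule ℝ E}
    (hT : LinearMap.range A.toLinearMap = T) {f : E → ℝ} (hf : Continuous f) :
    ∫ y in (T : Set E), f y ∂μH[m]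
      = ∫ ξ, A.toLinearMap.normDet * f (A ξ) ∂(μH[m] : Measure (EuclideanSpace ℝ (Fin m))) := by
  rw [restrict_range_eq A hT, integral_smul_measure,
    ENNReal.toReal_ofReal (LinearMap.normDet_nonneg _),
    integral_map A.continuous.measurable.aemeasurable hf.aestronglyMeasurable, smul_eq_mul,
    integral_const_mul]

namespace Patch

variable {m : ℕ} {S W' U : Set E} (P : Patch m S W') (V : IntegralVarifold m U)

/-- **blow-up** of the area measure of the patch -/
theorem blowup {x₀ : EuclideanSpace ℝ (Fin m)} {s : ℝ} (hs : s < P.ρ) (hx₀ : x₀ ∈ ball 0 s)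
    {f : E → ℝ} (hf : Continuous f) (hfc : HasCompactSupport f) :
    Tendsto (fun r : ℝ => (∫ x in ball 0 s, P.jac x * f (r⁻¹ • (P.i x - P.i x₀))
      ∂(μH[m] : Measure (EuclideanSpace ℝ (Fin m)))) / r ^ m) (𝓝[>] 0)
      (𝓝 (∫ y in (P.tan x₀ : Set E), f y ∂μH[m])) := by
  set μF : Measure (EuclideanSpace ℝ (Fin m)) := μH[m] with hμF
  have hballs : ball (0 : EuclideanSpace ℝ (Fin m)) s ⊆ ball 0 P.ρ := ball_subset_ball hs.le
  have hx₀' : x₀ ∈ ball 0 P.ρ := hballs hx₀
  set A := fderiv ℝ P.i x₀ with hA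
  rw [integral_range_eq A (T := P.tan x₀) rfl hf]
  -- constants
  obtain ⟨J, hJ⟩ := (isCompact_closedBall (0 : EuclideanSpace ℝ (Fin m)) s).exists_bound_of_continuousOn
    (f := P.jac) (fun x hx => (P.contDiffAt_jac
      (closedBall_subset_ball hs hx)).continuousAt.continuousWithinAt)
  obtain ⟨M, hM⟩ := hfc.exists_bound_of_continuous hf
  obtain ⟨R, hR0, hR⟩ : ∃ R > 0, tsupport f ⊆ closedBall 0 R := by
    obtain ⟨R, hR⟩ := hfc.isBounded.subset_closedBall (0 : E)
    exact ⟨max R 1, by positivity, hR.trans (closedBall_subset_closedBall (le_max_left _ _))⟩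
  have hJ0 : 0 ≤ J := (norm_nonneg _).trans (hJ x₀ (ball_subset_closedBall hx₀))
  have hM0 : 0 ≤ M := (norm_nonneg _).trans (hM 0)
  set F : ℝ → EuclideanSpace ℝ (Fin m) → ℝ := fun r =>
    (ball (0 : EuclideanSpace ℝ (Fin m)) s).indicator
      fun x => P.jac x * f (r⁻¹ • (P.i x - P.i x₀)) with hF
  have hchange : ∀ r : ℝ, 0 < r →
      (∫ x in ball 0 s, P.jac x * f (r⁻¹ • (P.i x - P.i x₀)) ∂μF) / r ^ m
        = ∫ ξ, F r (x₀ + r • ξ) ∂μF := by
    intro r hr
    rw [← integral_indicator measurableSet_ball]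
    have h1 : ∫ ξ, F r (x₀ + r • ξ) ∂μF = |(r ^ Module.finrank ℝ (EuclideanSpace ℝ (Fin m)))⁻¹| •
        ∫ ξ, F r (x₀ + ξ) ∂μF := Measure.integral_comp_smul μF (fun ξ => F r (x₀ + ξ)) r
    rw [h1, integral_add_left_eq_self (μ := μF) (F r) x₀, smul_eq_mul, finrank_euclideanSpace,
      Fintype.card_fin, abs_of_pos (by positivity), div_eq_inv_mul]
  have hcongr : (fun r : ℝ => (∫ x in ball 0 s, P.jac x * f (r⁻¹ • (P.i x - P.i x₀)) ∂μF) / r ^ m)
      =ᶠ[𝓝[>] 0] fun r => ∫ ξ, F r (x₀ + r • ξ) ∂μF := by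
    filter_upwards [self_mem_nhdsWithin] with r hr
    exact hchange r hr
  rw [tendsto_congr' hcongr]
  refine tendsto_integral_filter_of_dominated_convergence
    ((closedBall (0 : EuclideanSpace ℝ (Fin m)) (P.K * R)).indicator fun _ => J * M) ?_ ?_ ?_ ?_
  · -- measurability
    filter_upwards [self_mem_nhdsWithin] with r hr
    have h1 : AEStronglyMeasurable (F r) μF := by
      rw [hF, aestronglyMeasurable_indicator_iff measurableSet_ball]
      refine ContinuousOn.aestronglyMeasurable (fun x hx => ?_) measurableSet_ball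
      have hxb := hballs hx
      refine ContinuousAt.continuousWithinAt ?_
      refine (P.contDiffAt_jac hxb).continuousAt.mul ?_
      refine hf.continuousAt.comp ?_
      exact ((P.contDiffAt_i hxb).continuousAt.sub continuousAt_const).const_smul r⁻¹
    have h2 : Measure.QuasiMeasurePreserving (fun ξ => x₀ + r • ξ) μF μF := by
      have h3 : Measure.QuasiMeasurePreserving (fun ξ : EuclideanSpace ℝ (Fin m) => r • ξ) μF μF := by
        refine ⟨by fun_prop, ?_⟩
        have := Measure.map_addHaar_smul μF (ne_of_gt hr)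
        rw [this]
        exact Measure.smul_absolutelyContinuous
      exact (measurePreserving_add_left μF x₀).quasiMeasurePreserving.comp h3
    exact h1.comp_quasiMeasurePreserving h2
  · -- bound
    filter_upwards [self_mem_nhdsWithin] with r hr
    have hr0 : (0:ℝ) < r := hr
    refine Eventually.of_forall fun ξ => ?_
    by_cases hb : x₀ + r • ξ ∈ ball (0 : EuclideanSpace ℝ (Fin m)) s
    · have h1 : F r (x₀ + r • ξ) = P.jac (x₀ + r • ξ) *
          f (r⁻¹ • (P.i (x₀ + r • ξ) - P.i x₀)) := indicator_of_mem hb _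
      rw [h1, norm_mul]
      by_cases hz : f (r⁻¹ • (P.i (x₀ + r • ξ) - P.i x₀)) = 0
      · rw [hz, norm_zero, mul_zero]
        exact indicator_nonneg (fun _ _ => mul_nonneg hJ0 hM0) _
      · have h2 : ‖r⁻¹ • (P.i (x₀ + r • ξ) - P.i x₀)‖ ≤ R := by
          have := hR (subset_tsupport f hz)
          rwa [mem_closedBall, dist_zero_right] at this
        rw [norm_smul, norm_inv, Real.norm_of_nonneg hr0.le] at h2
        have h3 : ‖P.i (x₀ + r • ξ) - P.i x₀‖ ≤ r * R := by
          rw [inv_mul_le_iff₀ hr0] at h2; exact h2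
        have h4 : ‖r • ξ‖ ≤ P.K * ‖P.i (x₀ + r • ξ) - P.i x₀‖ := by
          have h5 := P.lip_κ.dist_le_mul _ (P.maps_i _ (hballs hb)) _ (P.maps_i _ hx₀')
          rw [P.left_inv _ (hballs hb), P.left_inv _ hx₀', dist_eq_norm, dist_eq_norm,
            add_sub_cancel_left] at h5
          exact h5
        rw [norm_smul, Real.norm_of_nonneg hr0.le] at h4
        have h5 : ‖ξ‖ ≤ P.K * R := by
          have h6 : r * ‖ξ‖ ≤ r * (P.K * R) := by
            calc r * ‖ξ‖ ≤ P.K * ‖P.i (x₀ + r • ξ) - P.i x₀‖ := h4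
              _ ≤ P.K * (r * R) := by gcongr
              _ = _ := by ring
          exact le_of_mul_le_mul_left h6 hr0
        have h7 : ξ ∈ closedBall (0 : EuclideanSpace ℝ (Fin m)) (P.K * R) := by
          rw [mem_closedBall, dist_zero_right]; exact h5
        have h8 : (closedBall (0 : EuclideanSpace ℝ (Fin m)) (P.K * R)).indicator
            (fun _ => J * M) ξ = J * M := indicator_of_mem h7 _
        rw [h8]
        exact mul_le_mul (hJ _ (ball_subset_closedBall hb)) (hM _) (norm_nonneg _) hJ0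
    · have h1 : F r (x₀ + r • ξ) = 0 := indicator_of_notMem hb _
      rw [h1, norm_zero]
      exact indicator_nonneg (fun _ _ => mul_nonneg hJ0 hM0) _
  · -- integrability of the bound
    rw [integrable_indicator_iff isClosed_closedBall.measurableSet]
    exact integrableOn_const (isCompact_closedBall _ _).measure_lt_top.ne
  · -- pointwise limit
    refine Eventually.of_forall fun ξ => ?_
    have hline : Tendsto (fun r : ℝ => x₀ + r • ξ) (𝓝[>] 0) (𝓝 x₀) := by
      have h1 : Continuous fun r : ℝ => x₀ + r • ξ := by fun_prop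
      have h2 := h1.tendsto 0
      rw [zero_smul, add_zero] at h2
      exact h2.mono_left nhdsWithin_le_nhds
    have hev : (fun r : ℝ => F r (x₀ + r • ξ)) =ᶠ[𝓝[>] 0]
        fun r => P.jac (x₀ + r • ξ) * f (r⁻¹ • (P.i (x₀ + r • ξ) - P.i x₀)) := by
      filter_upwards [hline.eventually (isOpen_ball.mem_nhds hx₀)] with r hr
      have hr' : x₀ + r • ξ ∈ ball (0 : EuclideanSpace ℝ (Fin m)) s := hr
      exact indicator_of_mem hr' _
    rw [tendsto_congr' hev]
    refine Tendsto.mul ((P.contDiffAt_jac hx₀').continuousAt.tendsto.comp hline) ?_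
    refine (hf.tendsto _).comp ?_
    have h1 : HasDerivAt (fun t : ℝ => P.i (x₀ + t • ξ)) (A ξ) 0 := by
      have h2 : HasFDerivAt P.i A (x₀ + (0:ℝ) • ξ) := by
        rw [zero_smul, add_zero]; exact P.hasFDerivAt_i hx₀'
      have h3 : HasDerivAt (fun t : ℝ => x₀ + t • ξ) ξ 0 := by
        simpa using ((hasDerivAt_id (0:ℝ)).smul_const ξ).const_add x₀
      exact h2.comp_hasDerivAt (0:ℝ) h3
    have h2 := h1.tendsto_slope_zero_right
    simp only [zero_add, zero_smul, add_zero] at h2
    exact h2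

/-- the multiplicity equals the density constant -/
theorem mult_eq (hU : W' ⊆ U) (hsub : V.spt ∩ W' ⊆ S) {s c : ℝ} (hs : s < P.ρ) (hc0 : 0 ≤ c)
    (hc : V.weight.restrict (P.nb s)
      = (((μH[m] : Measure (EuclideanSpace ℝ (Fin m))).restrict (ball 0 s)).withDensity
          (fun x => ENNReal.ofReal (c * P.jac x))).map P.i) :
    ∀ᵐ y ∂V.weight, y ∈ P.nb s → (V.mult y : ℝ) = c := by
  filter_upwards [V.tangent_spec, P.tangent_ae V hU hsub, ae_mem_spt V hU] with y hy hyt hys hyn
  have hyW : y ∈ W' := P.nb_subset s hyn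
  have hyS : y ∈ S ∩ W' := ⟨hsub ⟨hys hyW, hyW⟩, hyW⟩
  set x₀ := P.κ y with hx₀
  have hx₀b : x₀ ∈ ball 0 s := hyn.2
  have hx₀' : x₀ ∈ ball 0 P.ρ := P.maps_κ y hyW
  have hyx : P.i x₀ = y := P.right_inv y hyS
  obtain ⟨hfin, hlim⟩ := hy
  rw [hyt hyW] at hlim
  let f : ContDiffBump (0 : E) := ⟨1, 2, by norm_num, by norm_num⟩
  have h1 := hlim f f.continuous f.hasCompactSupport
  rw [← V.weight_eq] at h1
  have h2 := (P.blowup hs hx₀b f.continuous f.hasCompactSupport).const_mul c
  have h3 : (fun r : ℝ => (∫ y', f (r⁻¹ • (y' - y)) ∂V.weight) / r ^ m) =ᶠ[𝓝[>] 0]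
      fun r : ℝ => c * ((∫ x in ball 0 s, P.jac x * f (r⁻¹ • (P.i x - P.i x₀))
        ∂(μH[m] : Measure (EuclideanSpace ℝ (Fin m)))) / r ^ m) := by
    obtain ⟨η, hη, hηb⟩ := Metric.isOpen_iff.1 (P.isOpen_nb s) y hyn
    filter_upwards [Ioo_mem_nhdsGT (show (0:ℝ) < η / 2 by positivity)] with r hr
    have hr0 : 0 < r := hr.1
    rw [← mul_div_assoc]
    congr 1
    have h4 : ∫ y', f (r⁻¹ • (y' - y)) ∂V.weight
        = ∫ y' in P.nb s, f (r⁻¹ • (y' - y)) ∂V.weight := by
      refine (setIntegral_eq_integral_of_forall_compl_eq_zero fun y' hy' => ?_).symm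
      have h5 : r⁻¹ • (y' - y) ∉ Function.support f := by
        rw [f.support_eq]
        intro h6
        have h7 : ‖r⁻¹ • (y' - y)‖ < 2 := by simpa using h6
        rw [norm_smul, norm_inv, Real.norm_of_nonneg hr0.le, inv_mul_lt_iff₀ hr0] at h7
        refine hy' (hηb ?_)
        rw [mem_ball, dist_eq_norm]
        have := hr.2
        linarith
      simpa using h5
    rw [h4, hc]
    have hi := P.aemeasurable_i hs.le
    have hi' : AEMeasurable P.i
        (((μH[m] : Measure (EuclideanSpace ℝ (Fin m))).restrict (ball 0 s)).withDensity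
          (fun x => ENNReal.ofReal (c * P.jac x))) :=
      hi.mono_ac (withDensity_absolutelyContinuous _ _)
    have hfc : Continuous fun y' : E => f (r⁻¹ • (y' - y)) :=
      f.continuous.comp (by fun_prop)
    rw [integral_map hi' hfc.aestronglyMeasurable]
    have hjm : AEMeasurable (fun x => ENNReal.ofReal (c * P.jac x))
        ((μH[m] : Measure (EuclideanSpace ℝ (Fin m))).restrict (ball 0 s)) := by
      refine ENNReal.measurable_ofReal.comp_aemeasurable ?_
      refine ContinuousOn.aemeasurable (fun x hx => ?_) measurableSet_ball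
      exact (continuousAt_const.mul (P.contDiffAt_jac
        (ball_subset_ball hs.le hx)).continuousAt).continuousWithinAt
    rw [integral_withDensity_eq_integral_toReal_smul₀ hjm
      (Eventually.of_forall fun _ => ENNReal.ofReal_lt_top), ← integral_const_mul]
    refine integral_congr_ae (Eventually.of_forall fun x => ?_)
    simp only [smul_eq_mul, hyx]
    rw [ENNReal.toReal_ofReal (mul_nonneg hc0 (P.jac_nonneg x)), mul_assoc]
  have h4 := tendsto_nhds_unique (h1.congr' h3) h2
  have h5 : 0 < ∫ y in (P.tan x₀ : Set E), f y ∂μH[m] :=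
    integral_plane_pos (P.finrank_tan hx₀') f.continuous f.hasCompactSupport (fun y => f.nonneg)
      (P.tan x₀).zero_mem
      (by rw [f.one_of_mem_closedBall (mem_closedBall_self f.rIn_pos.le)]; norm_num)
  exact mul_right_cancel₀ h5.ne' h4

end Patch

end Vale.Agent.P214.CST
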