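import Vale.Agent.P214.CST.First
import Mathlib.MeasureTheory.Measure.Decomposition.IntegralRNDeriv

/-! The density of the weight in a patch is a constant multiple of the Jacobian. -/

open MeasureTheory Set Filter Topology Metric
open scoped ENNReal NNReal ContDiff RealInnerProductSpace

set_option linter.unusedSectionVars false

namespace Vale.Agent.P214.CST

open Vale.Agent.P214

variable {E : Type*} [NormedAddCommGroup E] [InnerProductSpace ℝ E] [FiniteDimensional ℝ E]
  [MeasurableSpace E] [BorelSpace E]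

namespace Patch

variable {m : ℕ} {S W' U : Set E} (P : Patch m S W') (V : IntegralVarifold m U)

/-- the shrunken neighbourhood -/
def nb (s : ℝ) : Set E := W' ∩ P.κ ⁻¹' ball 0 s

lemma isOpen_nb (s : ℝ) : IsOpen (P.nb s) :=
  P.smooth_κ.continuousOn.isOpen_inter_preimage P.isOpen isOpen_ball

lemma nb_subset (s : ℝ) : P.nb s ⊆ W' := inter_subset_left

lemma aemeasurable_κ : AEMeasurable P.κ (V.weight.restrict W') :=
  P.smooth_κ.continuousOn.aemeasurable P.isOpen.measurableSet

lemma aemeasurable_i {s : ℝ} (hs : s ≤ P.ρ) :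
    AEMeasurable P.i ((μH[m] : Measure (EuclideanSpace ℝ (Fin m))).restrict (ball 0 s)) :=
  (P.smooth_i.continuousOn.mono (ball_subset_ball hs)).aemeasurable measurableSet_ball

/-- the image of the weight in the parameter domain -/
noncomputable def lam : Measure (EuclideanSpace ℝ (Fin m)) := (V.weight.restrict W').map P.κ

lemma image_null {B : Set (EuclideanSpace ℝ (Fin m))}
    (hB : (μH[m] : Measure (EuclideanSpace ℝ (Fin m))) B = 0) :
    (μH[m] : Measure E) (P.i '' (B ∩ ball 0 P.ρ)) = 0 := by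
  have h1 := (P.lip_i.mono (inter_subset_right (s := B))).hausdorffMeasure_image_le
    (d := (m : ℝ)) (Nat.cast_nonneg m)
  have h2 : (μH[m] : Measure (EuclideanSpace ℝ (Fin m))) (B ∩ ball 0 P.ρ) = 0 :=
    measure_mono_null inter_subset_left hB
  rw [h2, mul_zero] at h1
  exact le_antisymm h1 bot_le

lemma lam_ac (hU : W' ⊆ U) (hsub : V.spt ∩ W' ⊆ S) :
    P.lam V ≪ (μH[m] : Measure (EuclideanSpace ℝ (Fin m))) := by
  refine Measure.AbsolutelyContinuous.mk fun B hB h0 => ?_
  rw [lam, Measure.map_apply_of_aemeasurable (P.aemeasurable_κ V) hB,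
    Measure.restrict_apply' P.isOpen.measurableSet]
  have h1 : P.κ ⁻¹' B ∩ W' ⊆ P.i '' (B ∩ ball 0 P.ρ) ∪ (W' \ V.spt) := by
    rintro y ⟨hy1, hy2⟩
    by_cases hys : y ∈ V.spt
    · left
      exact ⟨P.κ y, ⟨hy1, P.maps_κ y hy2⟩, P.right_inv y ⟨hsub ⟨hys, hy2⟩, hy2⟩⟩
    · right; exact ⟨hy2, hys⟩
  refine measure_mono_null h1 (measure_union_null ?_ (weight_diff_spt_null hU))
  rw [weight_eq_withDensity]
  exact withDensity_absolutelyContinuous _ _ (P.image_null h0)

/-- the weight in a patch, in the parameter domain -/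
theorem exists_lam (hst : V.IsStationary) (hU : W' ⊆ U) (hsub : V.spt ∩ W' ⊆ S)
    (hfin : V.weight W' ≠ ⊤) {s : ℝ} (hs : s < P.ρ) :
    ∃ c : ℝ, (P.lam V).restrict (ball 0 s)
      = ((μH[m] : Measure (EuclideanSpace ℝ (Fin m))).restrict (ball 0 s)).withDensity
          (fun x => ENNReal.ofReal (c * P.jac x)) := by
  set μF : Measure (EuclideanSpace ℝ (Fin m)) := μH[m] with hμF
  have hlf : IsFiniteMeasure (V.weight.restrict W') := ⟨by
    rw [Measure.restrict_apply_univ]; exact hfin.lt_top⟩
  have hlam : IsFiniteMeasure (P.lam V) := by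
    unfold lam; infer_instance
  have hac : P.lam V ≪ μF := P.lam_ac V hU hsub
  set h := (P.lam V).rnDeriv μF with hh
  have hwd : μF.withDensity h = P.lam V := Measure.withDensity_rnDeriv_eq _ _ hac
  have hball : closedBall (0 : EuclideanSpace ℝ (Fin m)) s ⊆ ball 0 P.ρ :=
    closedBall_subset_ball hs
  have hjc : ContinuousOn P.jac (ball 0 P.ρ) := fun x hx =>
    (P.contDiffAt_jac hx).continuousAt.continuousWithinAt
  have hji : ContinuousOn (fun x => (P.jac x)⁻¹) (ball 0 P.ρ) := fun x hx =>
    ((P.contDiffAt_jac hx).continuousAt.inv₀ (P.jac_pos hx).ne').continuousWithinAt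
  set f : EuclideanSpace ℝ (Fin m) → ℝ := fun x => (P.jac x)⁻¹ * (h x).toReal with hf
  have hfint : IntegrableOn f (ball 0 s) μF :=
    IntegrableOn.continuousOn_mul_of_subset (K := closedBall 0 s) (hji.mono hball)
      (Measure.integrable_toReal_rnDeriv.integrableOn) (isCompact_closedBall 0 s)
      measurableSet_ball ball_subset_closedBall
  have htest : ∀ φ : EuclideanSpace ℝ (Fin m) → ℝ, ContDiff ℝ ∞ φ → HasCompactSupport φ →
      tsupport φ ⊆ ball 0 s → ∀ v, ∫ p, fderiv ℝ φ p v * f p ∂μF = 0 := by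
    intro φ hφ hφc hφs v
    have hφs' : tsupport φ ⊆ ball 0 P.ρ := hφs.trans (ball_subset_ball hs.le)
    have h1 := P.weak_form V hst hU hsub hφ hφc hφs' v
    set g : EuclideanSpace ℝ (Fin m) → ℝ := fun x => (P.jac x)⁻¹ * fderiv ℝ φ x v with hg
    have hgc : Continuous g := by
      rw [continuous_iff_continuousAt]
      intro x
      by_cases hx : x ∈ tsupport φ
      · have hxb := hφs' hx
        refine ((P.contDiffAt_jac hxb).continuousAt.inv₀ (P.jac_pos hxb).ne').mul ?_
        exact ((hφ.continuous_fderiv (by simp)).clm_apply continuous_const).continuousAt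
      · have h2 : g =ᶠ[𝓝 x] fun _ => 0 := by
          filter_upwards [(isClosed_tsupport φ).isOpen_compl.mem_nhds hx] with x' hx'
          have h3 : fderiv ℝ φ x' = 0 := fderiv_of_notMem_tsupport (𝕜 := ℝ) hx'
          simp [hg, h3]
        exact continuousAt_const.congr h2.symm
    have h2 : ∫ y in W', (P.jac (P.κ y))⁻¹ * fderiv ℝ φ (P.κ y) v ∂V.weight
        = ∫ x, g x ∂(P.lam V) := by
      rw [lam, integral_map (P.aemeasurable_κ V) hgc.aestronglyMeasurable]
    rw [h2, ← integral_rnDeriv_smul hac] at h1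
    rw [← h1]
    refine integral_congr_ae (Eventually.of_forall fun x => ?_)
    simp only [hg, hf, smul_eq_mul]
    ring
  obtain ⟨c, hc⟩ := ae_const_of_weak_fderiv_eq_zero μF hfint htest
  refine ⟨c, ?_⟩
  rw [← hwd, restrict_withDensity measurableSet_ball]
  refine withDensity_congr_ae ?_
  filter_upwards [hc, ae_restrict_of_ae (Measure.rnDeriv_lt_top (P.lam V) μF),
    ae_restrict_mem measurableSet_ball] with x hx hxt hxb
  have hxb' : x ∈ ball 0 P.ρ := ball_subset_ball hs.le hxb
  have hJ := P.jac_pos hxb'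
  have h1 : (h x).toReal = c * P.jac x := by
    rw [← hx]; simp only [hf]; field_simp
  rw [← h1, ENNReal.ofReal_toReal hxt.ne]

/-- the weight in a patch -/
theorem exists_weight (hst : V.IsStationary) (hU : W' ⊆ U) (hsub : V.spt ∩ W' ⊆ S)
    (hfin : V.weight W' ≠ ⊤) {s : ℝ} (hs : s < P.ρ) :
    ∃ c : ℝ, V.weight.restrict (P.nb s)
      = (((μH[m] : Measure (EuclideanSpace ℝ (Fin m))).restrict (ball 0 s)).withDensity
          (fun x => ENNReal.ofReal (c * P.jac x))).map P.i := by
  obtain ⟨c, hc⟩ := P.exists_lam V hst hU hsub hfin hs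
  refine ⟨c, ?_⟩
  rw [← hc]
  have h1 : (P.lam V).restrict (ball 0 s) = (V.weight.restrict (P.nb s)).map P.κ := by
    unfold lam nb
    rw [Measure.restrict_map_of_aemeasurable (P.aemeasurable_κ V) measurableSet_ball,
      Measure.restrict_restrict₀' P.isOpen.measurableSet.nullMeasurableSet, inter_comm]
  have hκ : AEMeasurable P.κ (V.weight.restrict (P.nb s)) :=
    (P.aemeasurable_κ V).mono_measure (Measure.restrict_mono (P.nb_subset s) le_rfl)
  have hi : AEMeasurable P.i ((P.lam V).restrict (ball 0 s)) := by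
    have h2 := P.aemeasurable_i hs.le
    refine h2.mono_ac ?_
    exact (P.lam_ac V hU hsub).restrict _
  rw [h1] at hi ⊢
  rw [AEMeasurable.map_map_of_aemeasurable hi hκ]
  conv_lhs => rw [← Measure.map_id (μ := V.weight.restrict (P.nb s))]
  refine Measure.map_congr ?_
  filter_upwards [ae_restrict_of_ae (ae_mem_spt V hU),
    ae_restrict_mem (P.isOpen_nb s).measurableSet] with y hy hyn
  have hyW := P.nb_subset s hyn
  exact (P.right_inv y ⟨hsub ⟨hy hyW, hyW⟩, hyW⟩).symm

end Patch

end Vale.Agent.P214.CST
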