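import Vale.Agent.P214.CST.Tang
import Mathlib.Analysis.Calculus.FDeriv.Symmetric

/-! First variation in a patch. -/

open MeasureTheory Set Filter Topology Metric
open scoped ENNReal NNReal ContDiff RealInnerProductSpace

set_option linter.unusedSectionVars false

namespace Vale.Agent.P214.CST

open Vale.Agent.P214

variable {E : Type*} [NormedAddCommGroup E] [InnerProductSpace ℝ E] [FiniteDimensional ℝ E]
  [MeasurableSpace E] [BorelSpace E]

namespace Patch

variable {m : ℕ} {S W' U : Set E} (P : Patch m S W') (V : IntegralVarifold m U)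

/-- the divergence of a field which is `G ∘ κ` near a point of `S` -/
lemma divAlong_comp {y : E} (hy : y ∈ S ∩ W') {G : EuclideanSpace ℝ (Fin m) → E} {X : E → E}
    (hG : DifferentiableAt ℝ G (P.κ y)) (hX : X =ᶠ[𝓝 y] G ∘ P.κ) :
    divAlong (P.tan (P.κ y)) X y
      = ∑ k, P.pin (P.κ y) (fderiv ℝ G (P.κ y) (e k)) k := by
  have h1 : fderiv ℝ X y = (fderiv ℝ G (P.κ y)).comp (fderiv ℝ P.κ y) := by
    rw [hX.fderiv_eq]
    exact (hG.hasFDerivAt.comp y (P.hasFDerivAt_κ hy.2)).fderiv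
  unfold divAlong
  rw [h1]
  have h2 : ((proj (P.tan (P.κ y))).comp ((fderiv ℝ G (P.κ y)).comp (fderiv ℝ P.κ y))).toLinearMap
      = ((proj (P.tan (P.κ y))).toLinearMap ∘ₗ (fderiv ℝ G (P.κ y)).toLinearMap) ∘ₗ
        (fderiv ℝ P.κ y).toLinearMap := rfl
  rw [h2, LinearMap.trace_comp_comm', LinearMap.trace_eq_sum_inner _
    (EuclideanSpace.basisFun (Fin m) ℝ)]
  refine Finset.sum_congr rfl fun k _ => ?_
  have h3 : P.i (P.κ y) = y := P.right_inv y hy
  simp only [pin, h3]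
  have h4 : ∀ z : EuclideanSpace ℝ (Fin m), ⟪e k, z⟫ = z k := fun z => by
    simp [e, EuclideanSpace.inner_single_left]
  exact h4 _

lemma symm_snd {x : EuclideanSpace ℝ (Fin m)} (hx : x ∈ ball 0 P.ρ)
    (v w : EuclideanSpace ℝ (Fin m)) :
    fderiv ℝ (fun x' => fderiv ℝ P.i x' v) x w = fderiv ℝ (fun x' => fderiv ℝ P.i x' w) x v := by
  have hd : HasFDerivAt (fderiv ℝ P.i) (fderiv ℝ (fderiv ℝ P.i) x) x :=
    ((P.contDiffAt_fderiv hx).differentiableAt (by simp)).hasFDerivAt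
  have h1 : ∀ v w, fderiv ℝ (fun x' => fderiv ℝ P.i x' v) x w
      = fderiv ℝ (fderiv ℝ P.i) x w v := by
    intro v w
    have h2 := hd.clm_apply (hasFDerivAt_const v x)
    rw [h2.fderiv]
    simp
  rw [h1, h1]
  have h3 : IsSymmSndFDerivAt ℝ P.i x :=
    (P.contDiffAt_i hx).isSymmSndFDerivAt (by
      simp only [minSmoothness_of_isRCLikeNormedField]
      exact WithTop.coe_le_coe.2 (le_top : (2 : ℕ∞) ≤ ⊤))
  exact h3 w v

/-- the field used to test stationarity -/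
lemma exists_field {ψ : EuclideanSpace ℝ (Fin m) → ℝ} (hψ : ContDiff ℝ ∞ ψ)
    (hc : HasCompactSupport ψ) (hs : tsupport ψ ⊆ ball 0 P.ρ) (ξ : EuclideanSpace ℝ (Fin m)) :
    ∃ X : E → E, IsTestField W' X ∧ ∀ y ∈ S ∩ W',
      divAlong (P.tan (P.κ y)) X y = (P.jac (P.κ y))⁻¹ * fderiv ℝ ψ (P.κ y) ξ := by
  set G : EuclideanSpace ℝ (Fin m) → E :=
    fun x => (ψ x * (P.jac x)⁻¹) • fderiv ℝ P.i x ξ with hG
  have hGs : tsupport G ⊆ tsupport ψ := by
    refine closure_mono fun x hx h0 => hx ?_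
    simp [hG, h0]
  have hG1 : ContDiff ℝ 1 G := by
    rw [contDiff_iff_contDiffAt]
    intro x
    by_cases hx : x ∈ tsupport ψ
    · have hxb := hs hx
      have h1 : ContDiffAt ℝ ∞ G x :=
        (hψ.contDiffAt.mul ((P.contDiffAt_jac hxb).inv (P.jac_pos hxb).ne')).smul
          (P.contDiffAt_fderiv_apply hxb ξ)
      exact h1.of_le (by exact_mod_cast le_top)
    · have h1 : G =ᶠ[𝓝 x] fun _ => 0 := by
        filter_upwards [(isClosed_tsupport ψ).isOpen_compl.mem_nhds hx] with x' hx'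
        have : ψ x' = 0 := image_eq_zero_of_notMem_tsupport hx'
        simp [hG, this]
      exact contDiffAt_const.congr_of_eventuallyEq h1
  have hGc : HasCompactSupport G := hc.of_isClosed_subset (isClosed_tsupport G) hGs
  obtain ⟨X, hX, hXG⟩ := P.ext G hG1 hGc (hGs.trans hs)
  refine ⟨X, hX, fun y hy => ?_⟩
  have hx := P.maps_κ y hy.2
  set x := P.κ y with hxdef
  rw [P.divAlong_comp hy (hG1.differentiable (by norm_num) _) (hXG y hy), ← hxdef]
  set J := P.jac x with hJ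
  have hJ0 : J ≠ 0 := (P.jac_pos hx).ne'
  -- the derivative of `G`
  have hψd : HasFDerivAt ψ (fderiv ℝ ψ x) x := (hψ.differentiable (by simp) x).hasFDerivAt
  have hJd : HasFDerivAt P.jac (fderiv ℝ P.jac x) x :=
    ((P.contDiffAt_jac hx).differentiableAt (by simp)).hasFDerivAt
  have hJi : HasFDerivAt (fun x => (P.jac x)⁻¹) (-(J ^ 2)⁻¹ • fderiv ℝ P.jac x) x := by
    have h1 := (hasDerivAt_inv hJ0).comp_hasFDerivAt x hJd
    exact h1
  have hAd : HasFDerivAt (fun x' => fderiv ℝ P.i x' ξ) (fderiv ℝ (fun x' => fderiv ℝ P.i x' ξ) x) x :=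
    ((P.contDiffAt_fderiv_apply hx ξ).differentiableAt (by simp)).hasFDerivAt
  have hGd := (hψd.mul hJi).smul hAd
  have hGf : ∀ k, P.pin x (fderiv ℝ G x (e k)) k
      = J⁻¹ * (fderiv ℝ ψ x (e k) * ξ k)
        - ψ x * (J ^ 2)⁻¹ * (fderiv ℝ P.jac x (e k) * ξ k)
        + ψ x * J⁻¹ * P.pin x (fderiv ℝ (fun x' => fderiv ℝ P.i x' (e k)) x ξ) k := by
    intro k
    have h1 : fderiv ℝ G x = _ := hGd.fderiv
    rw [h1]
    simp only [add_apply, smul_apply, Pi.mul_apply,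
      ContinuousLinearMap.smulRight_apply, map_add, map_smul, P.pin_fderiv hx,
      PiLp.add_apply, PiLp.smul_apply, smul_eq_mul, ← hJ, P.symm_snd hx ξ (e k)]
    ring
  have hsum : ∀ (L : EuclideanSpace ℝ (Fin m) →L[ℝ] ℝ), ∑ k, L (e k) * ξ k = L ξ := by
    intro L
    conv_rhs => rw [← (EuclideanSpace.basisFun (Fin m) ℝ).sum_repr ξ, map_sum]
    refine Finset.sum_congr rfl fun k _ => ?_
    rw [map_smul, smul_eq_mul, mul_comm]
    rfl
  rw [Finset.sum_congr rfl fun k _ => hGf k]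
  rw [Finset.sum_add_distrib, Finset.sum_sub_distrib, ← Finset.mul_sum, ← Finset.mul_sum,
    ← Finset.mul_sum, hsum, hsum, P.fderiv_jac hx ξ, ← hJ]
  field_simp
  ring

include P in
/-- **weak form** of stationarity in a patch -/
theorem weak_form (hst : V.IsStationary) (hU : W' ⊆ U) (hsub : V.spt ∩ W' ⊆ S)
    {ψ : EuclideanSpace ℝ (Fin m) → ℝ} (hψ : ContDiff ℝ ∞ ψ)
    (hc : HasCompactSupport ψ) (hs : tsupport ψ ⊆ ball 0 P.ρ) (ξ : EuclideanSpace ℝ (Fin m)) :
    ∫ y in W', (P.jac (P.κ y))⁻¹ * fderiv ℝ ψ (P.κ y) ξ ∂V.weight = 0 := by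
  obtain ⟨X, hX, hXd⟩ := P.exists_field hψ hc hs ξ
  have hXU : IsTestField U X := ⟨hX.1, hX.2.1, hX.2.2.trans hU⟩
  have h1 := hst X hXU
  have hoff : ∀ y, y ∉ W' → divAlong (V.tangent y) X y = 0 := fun y hy => by
    have h2 : fderiv ℝ X y = 0 := by
      by_contra hne
      exact hy (hX.2.2 (support_fderiv_subset ℝ hne))
    unfold divAlong
    rw [h2]; simp
  rw [← h1, ← setIntegral_eq_integral_of_forall_compl_eq_zero (s := W')
    (f := fun y => divAlong (V.tangent y) X y) (fun y hy => hoff y hy)]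
  refine setIntegral_congr_ae P.isOpen.measurableSet ?_
  filter_upwards [P.tangent_ae V hU hsub, ae_mem_spt V hU] with y hy hys hyW
  rw [hy hyW, hXd y ⟨hsub ⟨hys hyW, hyW⟩, hyW⟩]

end Patch

end Vale.Agent.P214.CST
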