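import Vale.Agent.P214.CST.Tan
import Mathlib.LinearAlgebra.Matrix.Charpoly.Coeff
import Mathlib.Analysis.InnerProductSpace.NormDet
import Mathlib.Analysis.Calculus.Deriv.Prod

/-! The Jacobian of a patch and its derivative. -/

open MeasureTheory Set Filter Topology Metric
open scoped ENNReal NNReal ContDiff RealInnerProductSpace

set_option linter.unusedSectionVars false

namespace Vale.Agent.P214.CST

open Vale.Agent.P214

/-- the determinant is smooth -/
lemma contDiff_det (n : ℕ) :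
    ContDiff ℝ ∞ fun X : Fin n → Fin n → ℝ => (Matrix.of X).det := by
  have h : (fun X : Fin n → Fin n → ℝ => (Matrix.of X).det)
      = fun X => ∑ σ : Equiv.Perm (Fin n), ((Equiv.Perm.sign σ : ℤ) : ℝ) * ∏ i, X (σ i) i := by
    funext X
    rw [Matrix.det_apply']
    rfl
  rw [h]
  refine ContDiff.sum fun σ _ => contDiff_const.mul ?_
  exact contDiff_prod fun i _ => contDiff_apply_apply ℝ ℝ (σ i) i

/-- Jacobi's formula -/
lemma hasDerivAt_det {n : ℕ} {M : ℝ → Matrix (Fin n) (Fin n) ℝ} {M' : Matrix (Fin n) (Fin n) ℝ}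
    {t : ℝ} (hM : ∀ i j, HasDerivAt (fun s => M s i j) (M' i j) t) (h : (M t).det ≠ 0) :
    HasDerivAt (fun s => (M s).det) ((M t).det * Matrix.trace ((M t)⁻¹ * M')) t := by
  set D : (Fin n → Fin n → ℝ) → ℝ := fun X => (Matrix.of X).det with hD
  have hDd : ∀ X, HasFDerivAt D (fderiv ℝ D X) X := fun X =>
    ((contDiff_det n).contDiffAt.differentiableAt (by simp)).hasFDerivAt
  have h1 : HasDerivAt (fun s => (fun i j => M s i j : Fin n → Fin n → ℝ))
      (fun i j => M' i j : Fin n → Fin n → ℝ) t :=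
    hasDerivAt_pi.2 fun i => hasDerivAt_pi.2 fun j => hM i j
  have h2 : HasDerivAt (fun s => (M s).det) (fderiv ℝ D (M t) M') t :=
    (hDd (M t)).comp_hasDerivAt t h1
  have h3 : HasDerivAt (fun r : ℝ => (M t + r • M').det) (fderiv ℝ D (M t) M') 0 := by
    have h4 : HasDerivAt (fun r : ℝ => ((fun i j => M t i j + r * M' i j) : Fin n → Fin n → ℝ))
        (fun i j => M' i j : Fin n → Fin n → ℝ) 0 := by
      refine hasDerivAt_pi.2 fun i => hasDerivAt_pi.2 fun j => ?_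
      simpa using ((hasDerivAt_id (0:ℝ)).mul_const (M' i j)).const_add (M t i j)
    have h5 : HasFDerivAt D (fderiv ℝ D (M t))
        ((fun i j => M t i j + (0:ℝ) * M' i j) : Fin n → Fin n → ℝ) := by
      have : ((fun i j => M t i j + (0:ℝ) * M' i j) : Fin n → Fin n → ℝ) = M t := by
        funext i j; simp
      rw [this]; exact hDd _
    have h6 := h5.comp_hasDerivAt (0:ℝ) h4
    exact h6
  have h4 : HasDerivAt (fun r : ℝ => (M t + r • M').det)
      ((M t).det * Matrix.trace ((M t)⁻¹ * M')) 0 := by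
    have h5 : ∀ r : ℝ, (M t + r • M').det
        = (M t).det * (1 + r • ((M t)⁻¹ * M')).det := by
      intro r
      rw [← Matrix.det_mul, mul_add, mul_one, mul_smul_comm, ← Matrix.mul_assoc,
        Matrix.mul_nonsing_inv _ (isUnit_iff_ne_zero.2 h), Matrix.one_mul]
    have h6 : (fun r : ℝ => (M t + r • M').det) = fun r =>
        (M t).det * (1 + Matrix.trace ((M t)⁻¹ * M') * r + ((Matrix.det (1 +
          (Polynomial.X : Polynomial ℝ) • ((M t)⁻¹ * M').map Polynomial.C)).divX.divX.eval r)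
            * r ^ 2) := by
      funext r
      rw [h5, Matrix.det_one_add_smul]
    rw [h6]
    set q : Polynomial ℝ := (Matrix.det (1 +
          (Polynomial.X : Polynomial ℝ) • ((M t)⁻¹ * M').map Polynomial.C)).divX.divX
    have h7 : HasDerivAt (fun r : ℝ => q.eval r * r ^ 2) 0 0 := by
      have := (q.hasDerivAt (0:ℝ)).mul (hasDerivAt_pow 2 (0:ℝ))
      refine this.congr_deriv ?_
      simp
    have h8 : HasDerivAt (fun r : ℝ => Matrix.trace ((M t)⁻¹ * M') * r)
        (Matrix.trace ((M t)⁻¹ * M')) 0 := by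
      simpa using (hasDerivAt_id (0:ℝ)).const_mul (Matrix.trace ((M t)⁻¹ * M'))
    have h9 := ((h8.const_add 1).add h7).const_mul (M t).det
    simpa using h9
  rw [← h3.unique h4]
  exact h2

variable {E : Type*} [NormedAddCommGroup E] [InnerProductSpace ℝ E] [FiniteDimensional ℝ E]

namespace Patch

variable {m : ℕ} {S W' : Set E} (P : Patch m S W')

/-- standard basis vectors -/
noncomputable abbrev e (j : Fin m) : EuclideanSpace ℝ (Fin m) := EuclideanSpace.basisFun (Fin m) ℝ j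

/-- the Gram matrix of the parametrisation -/
noncomputable def gr (x : EuclideanSpace ℝ (Fin m)) : Matrix (Fin m) (Fin m) ℝ :=
  Matrix.gram ℝ fun j => fderiv ℝ P.i x (e j)

/-- the Jacobian of the parametrisation -/
noncomputable def jac (x : EuclideanSpace ℝ (Fin m)) : ℝ := (fderiv ℝ P.i x).toLinearMap.normDet

lemma gr_apply (x : EuclideanSpace ℝ (Fin m)) (j k : Fin m) :
    P.gr x j k = ⟪fderiv ℝ P.i x (e j), fderiv ℝ P.i x (e k)⟫ := rfl

lemma jac_sq (x : EuclideanSpace ℝ (Fin m)) : P.jac x ^ 2 = (P.gr x).det := by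
  have := (fderiv ℝ P.i x).toLinearMap.normDet_sq_eq_det_gram (EuclideanSpace.basisFun (Fin m) ℝ)
  exact this

lemma jac_nonneg (x : EuclideanSpace ℝ (Fin m)) : 0 ≤ P.jac x := LinearMap.normDet_nonneg _

lemma jac_pos {x : EuclideanSpace ℝ (Fin m)} (hx : x ∈ ball 0 P.ρ) : 0 < P.jac x := by
  refine lt_of_le_of_ne (P.jac_nonneg x) (Ne.symm ?_)
  intro h0
  rw [jac, LinearMap.normDet_eq_zero_iff_ker_ne_bot] at h0
  exact h0 (LinearMap.ker_eq_bot.2 (P.injective_fderiv hx))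

lemma det_gr_pos {x : EuclideanSpace ℝ (Fin m)} (hx : x ∈ ball 0 P.ρ) : 0 < (P.gr x).det := by
  rw [← P.jac_sq]; exact pow_pos (P.jac_pos hx) 2

lemma contDiffAt_fderiv {x : EuclideanSpace ℝ (Fin m)} (hx : x ∈ ball 0 P.ρ) :
    ContDiffAt ℝ ∞ (fderiv ℝ P.i) x := by
  exact (P.contDiffAt_i hx).fderiv_right (m := ∞) (by simp)

lemma contDiffAt_fderiv_apply {x : EuclideanSpace ℝ (Fin m)} (hx : x ∈ ball 0 P.ρ)
    (v : EuclideanSpace ℝ (Fin m)) : ContDiffAt ℝ ∞ (fun x' => fderiv ℝ P.i x' v) x :=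
  (P.contDiffAt_fderiv hx).clm_apply contDiffAt_const

lemma contDiffAt_det_gr {x : EuclideanSpace ℝ (Fin m)} (hx : x ∈ ball 0 P.ρ) :
    ContDiffAt ℝ ∞ (fun x' => (P.gr x').det) x := by
  have h1 : ContDiffAt ℝ ∞
      (fun x' => (fun j k => P.gr x' j k : Fin m → Fin m → ℝ)) x := by
    refine contDiffAt_pi.2 fun j => contDiffAt_pi.2 fun k => ?_
    exact (P.contDiffAt_fderiv_apply hx _).inner ℝ (P.contDiffAt_fderiv_apply hx _)
  exact (contDiff_det m).contDiffAt.comp x h1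

lemma jac_eq_sqrt (x : EuclideanSpace ℝ (Fin m)) : P.jac x = √((P.gr x).det) := by
  rw [← P.jac_sq, Real.sqrt_sq (P.jac_nonneg x)]

lemma contDiffAt_jac {x : EuclideanSpace ℝ (Fin m)} (hx : x ∈ ball 0 P.ρ) :
    ContDiffAt ℝ ∞ P.jac x := by
  have h : P.jac = fun x' => √((P.gr x').det) := funext P.jac_eq_sqrt
  rw [h]
  exact (P.contDiffAt_det_gr hx).sqrt (P.det_gr_pos hx).ne'

/-- the pseudo-inverse of the derivative -/
noncomputable def pin (x : EuclideanSpace ℝ (Fin m)) : E →L[ℝ] EuclideanSpace ℝ (Fin m) :=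
  (fderiv ℝ P.κ (P.i x)).comp (proj (P.tan x))

lemma pin_fderiv {x : EuclideanSpace ℝ (Fin m)} (hx : x ∈ ball 0 P.ρ)
    (ξ : EuclideanSpace ℝ (Fin m)) : P.pin x (fderiv ℝ P.i x ξ) = ξ := by
  have h1 : proj (P.tan x) (fderiv ℝ P.i x ξ) = fderiv ℝ P.i x ξ :=
    Submodule.starProjection_eq_self_iff.2 (P.fderiv_mem_tan x ξ)
  rw [pin, ContinuousLinearMap.comp_apply, h1, P.fderiv_κ_i hx]

lemma proj_mem (T : Submodule ℝ E) (w : E) : proj T w ∈ T := by
  unfold proj
  exact Submodule.starProjection_apply_mem T w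

lemma fderiv_pin {x : EuclideanSpace ℝ (Fin m)} (hx : x ∈ ball 0 P.ρ) (w : E) :
    fderiv ℝ P.i x (P.pin x w) = proj (P.tan x) w :=
  P.fderiv_i_κ hx (proj_mem _ w)

/-- the Gram matrix applied to the coordinates of `pin w` -/
lemma gr_mulVec_pin {x : EuclideanSpace ℝ (Fin m)} (hx : x ∈ ball 0 P.ρ) (w : E) :
    (P.gr x).mulVec (fun k => P.pin x w k) = fun j => ⟪fderiv ℝ P.i x (e j), w⟫ := by
  funext j
  have h1 : ⟪fderiv ℝ P.i x (e j), w⟫ = ⟪fderiv ℝ P.i x (e j), proj (P.tan x) w⟫ := by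
    have h2 : ⟪fderiv ℝ P.i x (e j), w - proj (P.tan x) w⟫ = 0 := by
      refine Submodule.inner_right_of_mem_orthogonal (P.fderiv_mem_tan x (e j)) ?_
      exact Submodule.sub_starProjection_mem_orthogonal w
    rw [inner_sub_right] at h2
    linarith
  rw [h1, ← P.fderiv_pin hx w]
  have h3 : P.pin x w = ∑ k, P.pin x w k • (e k : EuclideanSpace ℝ (Fin m)) := by
    exact ((EuclideanSpace.basisFun (Fin m) ℝ).sum_repr (P.pin x w)).symm
  conv_rhs => rw [h3, map_sum, inner_sum]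
  simp only [Matrix.mulVec, dotProduct, gr_apply, map_smul, inner_smul_right]
  exact Finset.sum_congr rfl fun k _ => mul_comm _ _

lemma pin_apply {x : EuclideanSpace ℝ (Fin m)} (hx : x ∈ ball 0 P.ρ) (w : E) (k : Fin m) :
    P.pin x w k = ((P.gr x)⁻¹.mulVec fun j => ⟪fderiv ℝ P.i x (e j), w⟫) k := by
  rw [← P.gr_mulVec_pin hx w, Matrix.mulVec_mulVec,
    Matrix.nonsing_inv_mul _ (isUnit_iff_ne_zero.2 (P.det_gr_pos hx).ne'), Matrix.one_mulVec]

/-- the derivative of the Jacobian -/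
lemma fderiv_jac {x : EuclideanSpace ℝ (Fin m)} (hx : x ∈ ball 0 P.ρ)
    (ξ : EuclideanSpace ℝ (Fin m)) :
    fderiv ℝ P.jac x ξ
      = P.jac x * ∑ k, P.pin x (fderiv ℝ (fun x' => fderiv ℝ P.i x' (e k)) x ξ) k := by
  set B : Fin m → E := fun k => fderiv ℝ (fun x' => fderiv ℝ P.i x' (e k)) x ξ with hB
  set A : Fin m → E := fun k => fderiv ℝ P.i x (e k) with hA
  have hline : HasDerivAt (fun t : ℝ => x + t • ξ) ξ 0 := by
    simpa using ((hasDerivAt_id (0:ℝ)).smul_const ξ).const_add x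
  have hx0 : x + (0:ℝ) • ξ = x := by simp
  have hAk : ∀ k, HasDerivAt (fun t : ℝ => fderiv ℝ P.i (x + t • ξ) (e k)) (B k) 0 := by
    intro k
    have h1 : HasFDerivAt (fun x' => fderiv ℝ P.i x' (e k))
        (fderiv ℝ (fun x' => fderiv ℝ P.i x' (e k)) x) (x + (0:ℝ) • ξ) := by
      rw [hx0]
      exact ((P.contDiffAt_fderiv_apply hx (e k)).differentiableAt (by simp)).hasFDerivAt
    exact h1.comp_hasDerivAt (0:ℝ) hline
  set M' : Matrix (Fin m) (Fin m) ℝ := Matrix.of fun j k => ⟪A j, B k⟫ + ⟪B j, A k⟫ with hM'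
  have hgr : ∀ j k, HasDerivAt (fun t : ℝ => P.gr (x + t • ξ) j k) (M' j k) 0 := by
    intro j k
    have h1 := (hAk j).inner ℝ (hAk k)
    simp only [hx0] at h1
    exact h1
  have hdet0 : (P.gr (x + (0:ℝ) • ξ)).det ≠ 0 := by rw [hx0]; exact (P.det_gr_pos hx).ne'
  have h2 := hasDerivAt_det hgr hdet0
  rw [hx0] at h2
  have h3 : HasDerivAt (fun t : ℝ => P.jac (x + t • ξ)) (fderiv ℝ P.jac x ξ) 0 := by
    have h4 : HasFDerivAt P.jac (fderiv ℝ P.jac x) (x + (0:ℝ) • ξ) := by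
      rw [hx0]; exact ((P.contDiffAt_jac hx).differentiableAt (by simp)).hasFDerivAt
    exact h4.comp_hasDerivAt (0:ℝ) hline
  have h4 : HasDerivAt (fun t : ℝ => (P.gr (x + t • ξ)).det)
      (2 * P.jac x * fderiv ℝ P.jac x ξ) 0 := by
    have h5 := h3.pow 2
    have h6 : (fun t : ℝ => (P.gr (x + t • ξ)).det) = fun t : ℝ => P.jac (x + t • ξ) ^ 2 := by
      funext t; rw [P.jac_sq]
    rw [h6]
    refine h5.congr_deriv ?_
    rw [hx0]; ring
  have h5 := h4.unique h2
  have hpos := P.jac_pos hx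
  rw [← P.jac_sq] at h5
  -- the trace
  have h6 : Matrix.trace ((P.gr x)⁻¹ * M')
      = 2 * ∑ k, P.pin x (B k) k := by
    have hsymm : ((P.gr x)⁻¹).transpose = (P.gr x)⁻¹ := by
      rw [Matrix.transpose_nonsing_inv]
      congr 1
      ext j k
      rw [Matrix.transpose_apply, gr_apply, gr_apply, real_inner_comm]
    have h7 : ∀ k, P.pin x (B k) k = ∑ j, (P.gr x)⁻¹ k j * ⟪A j, B k⟫ := by
      intro k
      rw [P.pin_apply hx]
      rfl
    have h8 : Matrix.trace ((P.gr x)⁻¹ * M')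
        = (∑ k, ∑ j, (P.gr x)⁻¹ k j * ⟪A j, B k⟫) + ∑ k, ∑ j, (P.gr x)⁻¹ k j * ⟪B j, A k⟫ := by
      simp only [Matrix.trace, Matrix.diag_apply, Matrix.mul_apply, hM', Matrix.of_apply, mul_add,
        Finset.sum_add_distrib]
    have h9 : ∑ k, ∑ j, (P.gr x)⁻¹ k j * ⟪B j, A k⟫ = ∑ k, ∑ j, (P.gr x)⁻¹ k j * ⟪A j, B k⟫ := by
      rw [Finset.sum_comm]
      refine Finset.sum_congr rfl fun j _ => Finset.sum_congr rfl fun k _ => ?_
      have : (P.gr x)⁻¹ k j = (P.gr x)⁻¹ j k := by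
        conv_lhs => rw [← hsymm]
        rfl
      rw [this, real_inner_comm]
    rw [h8, h9]
    simp only [h7]
    ring
  rw [h6] at h5
  have h7 : P.jac x ≠ 0 := hpos.ne'
  field_simp at h5
  linarith

end Patch

end Vale.Agent.P214.CST
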