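import Vale.Agent.P214.Bdl.B1

/-! Local parametrisations (patches) of smooth submanifolds of a Euclidean space. -/

open MeasureTheory Set Filter Topology Metric
open scoped ENNReal NNReal ContDiff RealInnerProductSpace

namespace Vale.Agent.P214.CST

open Vale.Agent.P214

variable {E : Type*} [NormedAddCommGroup E] [InnerProductSpace ℝ E] [FiniteDimensional ℝ E]

/-- isometric parametrisation of a linear plane, together with its adjoint -/
lemma exists_param' {m : ℕ} {L : Submodule ℝ E} (hL : Module.finrank ℝ L = m) :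
    ∃ (ι : EuclideanSpace ℝ (Fin m) →ₗᵢ[ℝ] E) (π : E →L[ℝ] EuclideanSpace ℝ (Fin m)),
      range ι = (L : Set E) ∧ (∀ p, π (ι p) = p) ∧ (∀ z, ‖π z‖ ≤ ‖z‖) := by
  let b := (stdOrthonormalBasis ℝ L).reindex (finCongr hL)
  let ι : EuclideanSpace ℝ (Fin m) →ₗᵢ[ℝ] E :=
    L.subtypeₗᵢ.comp b.repr.symm.toLinearIsometry
  refine ⟨ι, ContinuousLinearMap.adjoint ι.toContinuousLinearMap, ?_, ?_, ?_⟩
  · ext y
    constructor
    · rintro ⟨p, rfl⟩; exact (b.repr.symm p).2
    · intro hy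
      exact ⟨b.repr ⟨y, hy⟩, by simp [ι]⟩
  · intro p
    refine ext_inner_right ℝ fun q => ?_
    rw [ContinuousLinearMap.adjoint_inner_left]
    exact ι.inner_map_map p q
  · intro z
    have h1 : ‖ContinuousLinearMap.adjoint ι.toContinuousLinearMap‖ ≤ 1 := by
      rw [LinearIsometryEquiv.norm_map]
      exact ι.norm_toContinuousLinearMap_le
    calc ‖ContinuousLinearMap.adjoint ι.toContinuousLinearMap z‖
        ≤ ‖ContinuousLinearMap.adjoint ι.toContinuousLinearMap‖ * ‖z‖ :=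
          ContinuousLinearMap.le_opNorm _ _
      _ ≤ 1 * ‖z‖ := by gcongr
      _ = ‖z‖ := one_mul _

/-- A smooth parametrisation of the part `S ∩ W'` of `S` by a ball of `ℝ^m`. -/
structure Patch (m : ℕ) (S W' : Set E) where
  /-- radius of the parameter ball -/
  ρ : ℝ
  /-- the parametrisation -/
  i : EuclideanSpace ℝ (Fin m) → E
  /-- a smooth left inverse -/
  κ : E → EuclideanSpace ℝ (Fin m)
  hρ : 0 < ρ
  isOpen : IsOpen W'
  smooth_i : ContDiffOn ℝ ∞ i (ball 0 ρ)
  smooth_κ : ContDiffOn ℝ ∞ κ W'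
  maps_i : ∀ x ∈ ball (0 : EuclideanSpace ℝ (Fin m)) ρ, i x ∈ S ∩ W'
  maps_κ : ∀ y ∈ W', κ y ∈ ball (0 : EuclideanSpace ℝ (Fin m)) ρ
  left_inv : ∀ x ∈ ball (0 : EuclideanSpace ℝ (Fin m)) ρ, κ (i x) = x
  right_inv : ∀ y ∈ S ∩ W', i (κ y) = y
  K : ℝ≥0
  lip_i : LipschitzOnWith K i (ball 0 ρ)
  lip_κ : LipschitzOnWith K κ (S ∩ W')
  ext : ∀ G : EuclideanSpace ℝ (Fin m) → E, ContDiff ℝ 1 G → HasCompactSupport G →
    tsupport G ⊆ ball 0 ρ → ∃ X : E → E, IsTestField W' X ∧ ∀ y ∈ S ∩ W', X =ᶠ[𝓝 y] G ∘ κ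

/-- existence of patches -/
theorem exists_patch {m : ℕ} {S W : Set E} (hS : IsSmoothSubmanifold m S) {p : E}
    (hp : p ∈ S) (hW : W ∈ 𝓝 p) :
    ∃ W' : Set E, p ∈ W' ∧ W' ⊆ W ∧ ∃ P : Patch m S W', P.κ p = 0 := by
  obtain ⟨Φ, hpΦ, hΦ, hΦs, L, hL, hSL⟩ := hS p hp
  obtain ⟨ι, π, hι, hπ, hπn⟩ := exists_param' (E := E) hL
  set z0 := Φ p with hz0
  have hz0t : z0 ∈ Φ.target := Φ.map_source hpΦ
  have hz0L : z0 ∈ L := by
    have : z0 ∈ Φ '' (S ∩ Φ.source) := ⟨p, ⟨hp, hpΦ⟩, rfl⟩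
    rw [hSL] at this
    exact this.1
  -- local Lipschitz bounds
  obtain ⟨K1, t1, ht1, hK1⟩ : ∃ K, ∃ t ∈ 𝓝 p, LipschitzOnWith K Φ t :=
    ((hΦ.contDiffAt (Φ.open_source.mem_nhds hpΦ)).of_le (by exact_mod_cast le_top)).exists_lipschitzOnWith
  obtain ⟨K2, t2, ht2, hK2⟩ : ∃ K, ∃ t ∈ 𝓝 z0, LipschitzOnWith K Φ.symm t :=
    ((hΦs.contDiffAt (Φ.open_target.mem_nhds hz0t)).of_le
      (by exact_mod_cast le_top)).exists_lipschitzOnWith
  have hcont : ContinuousAt Φ.symm z0 := Φ.continuousAt_symm hz0t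
  have hsz : Φ.symm z0 = p := Φ.left_inv hpΦ
  have hN : Φ.target ∩ t2 ∩ Φ.symm ⁻¹' (W ∩ t1) ∈ 𝓝 z0 := by
    refine inter_mem (inter_mem (Φ.open_target.mem_nhds hz0t) ht2) ?_
    refine hcont.preimage_mem_nhds ?_
    rw [hsz]
    exact inter_mem hW ht1
  obtain ⟨ρ, hρ, hball⟩ := Metric.mem_nhds_iff.1 hN
  set W' : Set E := Φ.source ∩ Φ ⁻¹' ball z0 ρ with hW'
  have hW'open : IsOpen W' := Φ.isOpen_inter_preimage isOpen_ball
  have hW'sub : W' ⊆ W := by
    intro y hy
    have h1 := hball hy.2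
    have h2 : Φ.symm (Φ y) ∈ W ∩ t1 := h1.2
    rw [Φ.left_inv hy.1] at h2
    exact h2.1
  have hW't1 : W' ⊆ t1 := by
    intro y hy
    have h1 := hball hy.2
    have h2 : Φ.symm (Φ y) ∈ W ∩ t1 := h1.2
    rw [Φ.left_inv hy.1] at h2
    exact h2.2
  have hιball : ∀ x ∈ ball (0 : EuclideanSpace ℝ (Fin m)) ρ, z0 + ι x ∈ ball z0 ρ := by
    intro x hx
    rw [mem_ball, dist_eq_norm, add_sub_cancel_left, ι.norm_map]
    simpa using hx
  have hιL : ∀ x, z0 + ι x ∈ L := fun x => by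
    refine L.add_mem hz0L ?_
    rw [← SetLike.mem_coe, ← hι]; exact mem_range_self x
  set i : EuclideanSpace ℝ (Fin m) → E := fun x => Φ.symm (z0 + ι x) with hi
  set κ : E → EuclideanSpace ℝ (Fin m) := fun y => π (Φ y - z0) with hκ
  have hmaps_i : ∀ x ∈ ball (0 : EuclideanSpace ℝ (Fin m)) ρ, i x ∈ S ∩ W' := by
    intro x hx
    have h1 := hball (hιball x hx)
    have h2 : z0 + ι x ∈ Φ '' (S ∩ Φ.source) := by rw [hSL]; exact ⟨hιL x, h1.1.1⟩
    obtain ⟨y, hy, hye⟩ := h2
    have h3 : i x = y := by simp only [hi]; rw [← hye, Φ.left_inv hy.2]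
    rw [h3]
    refine ⟨hy.1, hy.2, ?_⟩
    rw [mem_preimage, hye]
    exact hιball x hx
  have hΦi : ∀ x ∈ ball (0 : EuclideanSpace ℝ (Fin m)) ρ, Φ (i x) = z0 + ι x := fun x hx =>
    Φ.right_inv (hball (hιball x hx)).1.1
  have hmaps_κ : ∀ y ∈ W', κ y ∈ ball (0 : EuclideanSpace ℝ (Fin m)) ρ := by
    intro y hy
    rw [mem_ball, dist_zero_right]
    refine (hπn _).trans_lt ?_
    have := hy.2
    rwa [mem_preimage, mem_ball, dist_eq_norm] at this
  have hΦS : ∀ y ∈ S ∩ W', Φ y = z0 + ι (κ y) := by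
    intro y hy
    have h1 : Φ y ∈ L := by
      have : Φ y ∈ Φ '' (S ∩ Φ.source) := ⟨y, ⟨hy.1, hy.2.1⟩, rfl⟩
      rw [hSL] at this
      exact this.1
    have h2 : Φ y - z0 ∈ range ι := by rw [hι]; exact L.sub_mem h1 hz0L
    obtain ⟨x, hx⟩ := h2
    simp only [hκ]
    rw [← hx, hπ, hx]; abel
  refine ⟨W', ⟨hpΦ, mem_ball_self hρ⟩, hW'sub, ⟨{
    ρ := ρ, i := i, κ := κ, hρ := hρ, isOpen := hW'open, smooth_i := ?_, smooth_κ := ?_,
    maps_i := hmaps_i, maps_κ := hmaps_κ, left_inv := ?_, right_inv := ?_,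
    K := max K1 K2, lip_i := ?_, lip_κ := ?_, ext := ?_ }, by simp [hκ, hz0]⟩⟩
  · have h1 : ContDiff ℝ ∞ fun x : EuclideanSpace ℝ (Fin m) => z0 + ι x :=
      contDiff_const.add ι.contDiff
    exact hΦs.comp h1.contDiffOn fun x hx => (hball (hιball x hx)).1.1
  · exact π.contDiff.comp_contDiffOn ((hΦ.mono inter_subset_left).sub contDiffOn_const)
  · intro x hx
    simp only [hκ]
    rw [hΦi x hx, add_sub_cancel_left, hπ]
  · intro y hy
    simp only [hi]
    rw [← hΦS y hy, Φ.left_inv hy.2.1]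
  · have h1 : LipschitzOnWith K2 Φ.symm (ball z0 ρ) := hK2.mono fun z hz => (hball hz).1.2
    have h2 : LipschitzWith 1 fun x : EuclideanSpace ℝ (Fin m) => z0 + ι x :=
      ((isometry_add_left z0).comp ι.isometry).lipschitz
    have h3 := h1.comp (h2.lipschitzOnWith (s := ball 0 ρ)) fun x hx => hιball x hx
    rw [mul_one] at h3
    exact h3.weaken (le_max_right _ _)
  · have h1 : LipschitzOnWith K1 Φ (S ∩ W') := hK1.mono fun y hy => hW't1 hy.2
    have h2 : LipschitzWith 1 fun z : E => π (z - z0) := by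
      refine LipschitzWith.of_dist_le_mul fun a b => ?_
      rw [dist_eq_norm, dist_eq_norm, ← map_sub, sub_sub_sub_cancel_right, NNReal.coe_one, one_mul]
      exact hπn _
    have h3 := (h2.lipschitzOnWith (s := univ)).comp h1 fun y _ => mem_univ _
    rw [one_mul] at h3
    exact h3.weaken (le_max_left _ _)
  · intro G hG hGc hGs
    obtain ⟨r', hr', hsub⟩ := exists_pos_lt_subset_ball hρ (isClosed_tsupport G) hGs
    obtain ⟨a, ha1, ha2⟩ := exists_between hr'.2
    obtain ⟨b, hb1, hb2⟩ := exists_between ha2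
    let η : ContDiffBump z0 := ⟨a, b, hr'.1.trans ha1, hb1⟩
    -- the field on the target side
    set H : E → E := fun z => η z • G (π (z - z0)) with hH
    have hH1 : ContDiff ℝ 1 H :=
      η.contDiff.smul (hG.comp (π.contDiff.comp (contDiff_id.sub contDiff_const)))
    have hHs : tsupport H ⊆ closedBall z0 b := by
      have h1 : tsupport H ⊆ tsupport η := closure_mono fun z hz h0 => hz (by simp [hH, h0])
      rwa [η.tsupport_eq] at h1
    have hbball : closedBall z0 b ⊆ ball z0 ρ := closedBall_subset_ball hb2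
    have hHt : tsupport H ⊆ Φ.target := hHs.trans (hbball.trans fun z hz => (hball hz).1.1)
    have hHc : IsCompact (tsupport H) :=
      (isCompact_closedBall z0 b).of_isClosed_subset (isClosed_tsupport H) hHs
    set C : Set E := Φ.symm '' tsupport H with hC
    have hCc : IsCompact C := hHc.image_of_continuousOn (Φ.continuousOn_symm.mono hHt)
    have hCW : C ⊆ W' := by
      rintro y ⟨z, hz, rfl⟩
      refine ⟨Φ.map_target (hHt hz), ?_⟩
      rw [mem_preimage, Φ.right_inv (hHt hz)]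
      exact hbball (hHs hz)
    classical
    set X : E → E := fun y => if y ∈ Φ.source then H (Φ y) else 0 with hX
    have hXsrc : ∀ y ∈ Φ.source, X y = H (Φ y) := fun y hy => by simp [hX, hy]
    have hX0 : ∀ y, y ∉ C → X y = 0 := by
      intro y hy
      by_cases hys : y ∈ Φ.source
      · rw [hXsrc y hys]
        by_contra hne
        exact hy ⟨Φ y, subset_tsupport _ hne, Φ.left_inv hys⟩
      · simp [hX, hys]
    have hXt : tsupport X ⊆ C := by
      refine closure_minimal (fun y hy => ?_) hCc.isClosed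
      by_contra hne
      exact hy (hX0 y hne)
    have hXW : tsupport X ⊆ W' := hXt.trans hCW
    refine ⟨X, ⟨?_, ?_, hXW⟩, ?_⟩
    · rw [contDiff_iff_contDiffAt]
      intro y
      by_cases hy : y ∈ C
      · have hys : y ∈ Φ.source := (hCW hy).1
        have h1 : X =ᶠ[𝓝 y] fun y => H (Φ y) := by
          filter_upwards [Φ.open_source.mem_nhds hys] with y' hy'
          exact hXsrc y' hy'
        refine ContDiffAt.congr_of_eventuallyEq ?_ h1
        exact hH1.contDiffAt.comp y ((hΦ.contDiffAt (Φ.open_source.mem_nhds hys)).of_le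
          (by exact_mod_cast le_top))
      · have h1 : X =ᶠ[𝓝 y] fun _ => 0 := by
          filter_upwards [hCc.isClosed.isOpen_compl.mem_nhds hy] with y' hy'
          exact hX0 y' hy'
        exact contDiffAt_const.congr_of_eventuallyEq h1
    · exact hCc.of_isClosed_subset (isClosed_tsupport X) hXt
    · intro y hy
      have hcy : ContinuousAt Φ y := Φ.continuousAt hy.2.1
      have hys : ∀ᶠ y' in 𝓝 y, y' ∈ Φ.source := Φ.open_source.mem_nhds hy.2.1
      by_cases hc : ‖κ y‖ < a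
      · have h2 : Φ y ∈ ball z0 a := by
          rw [hΦS y hy, mem_ball, dist_eq_norm, add_sub_cancel_left, ι.norm_map]
          exact hc
        filter_upwards [hys, hcy.preimage_mem_nhds (isOpen_ball.mem_nhds h2)] with y' hy' hy''
        rw [hXsrc y' hy']
        have h3 : η (Φ y') = 1 := η.one_of_mem_closedBall (ball_subset_closedBall hy'')
        simp only [hH, h3, one_smul, Function.comp_apply, hκ]
      · have h2 : κ y ∉ closedBall (0 : EuclideanSpace ℝ (Fin m)) r' := by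
          rw [mem_closedBall, dist_zero_right]; linarith
        have hκc : ContinuousAt κ y := by
          simp only [hκ]
          exact π.continuous.continuousAt.comp (hcy.sub continuousAt_const)
        filter_upwards [hys, hκc.preimage_mem_nhds
          (isClosed_closedBall.isOpen_compl.mem_nhds h2)] with y' hy' hy''
        have h3 : G (κ y') = 0 := by
          by_contra hne
          exact hy'' (ball_subset_closedBall (hsub (subset_tsupport _ hne)))
        rw [hXsrc y' hy']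
        show η (Φ y') • G (π (Φ y' - z0)) = G (κ y')
        rw [show G (π (Φ y' - z0)) = G (κ y') from rfl, h3, smul_zero]

end Vale.Agent.P214.CST
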