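import Vale.Agent.P214.CST.Patch

/-! Tangent planes of a patch. -/

open MeasureTheory Set Filter Topology Metric
open scoped ENNReal NNReal ContDiff RealInnerProductSpace

set_option linter.unusedSectionVars false

namespace Vale.Agent.P214.CST

open Vale.Agent.P214

variable {E : Type*} [NormedAddCommGroup E] [InnerProductSpace ℝ E] [FiniteDimensional ℝ E]

namespace Patch

variable {m : ℕ} {S W' : Set E} (P : Patch m S W')

lemma contDiffAt_i {x : EuclideanSpace ℝ (Fin m)} (hx : x ∈ ball 0 P.ρ) :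
    ContDiffAt ℝ ∞ P.i x := P.smooth_i.contDiffAt (isOpen_ball.mem_nhds hx)

lemma contDiffAt_κ {y : E} (hy : y ∈ W') : ContDiffAt ℝ ∞ P.κ y :=
  P.smooth_κ.contDiffAt (P.isOpen.mem_nhds hy)

lemma hasFDerivAt_i {x : EuclideanSpace ℝ (Fin m)} (hx : x ∈ ball 0 P.ρ) :
    HasFDerivAt P.i (fderiv ℝ P.i x) x :=
  ((P.contDiffAt_i hx).differentiableAt (by simp)).hasFDerivAt

lemma hasFDerivAt_κ {y : E} (hy : y ∈ W') : HasFDerivAt P.κ (fderiv ℝ P.κ y) y :=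
  ((P.contDiffAt_κ hy).differentiableAt (by simp)).hasFDerivAt

lemma fderiv_κ_i {x : EuclideanSpace ℝ (Fin m)} (hx : x ∈ ball 0 P.ρ)
    (ξ : EuclideanSpace ℝ (Fin m)) : fderiv ℝ P.κ (P.i x) (fderiv ℝ P.i x ξ) = ξ := by
  have h1 : HasFDerivAt (P.κ ∘ P.i) ((fderiv ℝ P.κ (P.i x)).comp (fderiv ℝ P.i x)) x :=
    (P.hasFDerivAt_κ (P.maps_i x hx).2).comp x (P.hasFDerivAt_i hx)
  have h2 : HasFDerivAt (P.κ ∘ P.i) (ContinuousLinearMap.id ℝ _) x := by
    refine (hasFDerivAt_id x).congr_of_eventuallyEq ?_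
    filter_upwards [isOpen_ball.mem_nhds hx] with x' hx'
    exact P.left_inv x' hx'
  have h3 := h1.unique h2
  exact congrArg (fun L : EuclideanSpace ℝ (Fin m) →L[ℝ] EuclideanSpace ℝ (Fin m) => L ξ) h3

/-- the tangent plane at the point with parameter `x` -/
noncomputable def tan (x : EuclideanSpace ℝ (Fin m)) : Submodule ℝ E :=
  LinearMap.range (fderiv ℝ P.i x).toLinearMap

lemma fderiv_mem_tan (x ξ : EuclideanSpace ℝ (Fin m)) : fderiv ℝ P.i x ξ ∈ P.tan x :=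
  ⟨ξ, rfl⟩

lemma injective_fderiv {x : EuclideanSpace ℝ (Fin m)} (hx : x ∈ ball 0 P.ρ) :
    Function.Injective (fderiv ℝ P.i x) := fun a b h => by
  rw [← P.fderiv_κ_i hx a, ← P.fderiv_κ_i hx b, h]

lemma finrank_tan {x : EuclideanSpace ℝ (Fin m)} (hx : x ∈ ball 0 P.ρ) :
    Module.finrank ℝ (P.tan x) = m := by
  unfold tan
  rw [LinearMap.finrank_range_of_inj (P.injective_fderiv hx)]
  simp

lemma i_image : P.i '' ball 0 P.ρ = S ∩ W' := by
  ext y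
  constructor
  · rintro ⟨x, hx, rfl⟩; exact P.maps_i x hx
  · intro hy; exact ⟨P.κ y, P.maps_κ y hy.2, P.right_inv y hy⟩

/-- `A (R v) = v` for `v` in the tangent plane -/
lemma fderiv_i_κ {x : EuclideanSpace ℝ (Fin m)} (hx : x ∈ ball 0 P.ρ) {v : E}
    (hv : v ∈ P.tan x) : fderiv ℝ P.i x (fderiv ℝ P.κ (P.i x) v) = v := by
  obtain ⟨ξ, rfl⟩ := hv
  exact congrArg _ (P.fderiv_κ_i hx ξ)

/-- the tangent space of `S` -/
lemma tanSpace_eq {y : E} (hy : y ∈ S ∩ W') : tanSpace S y = P.tan (P.κ y) := by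
  have hx := P.maps_κ y hy.2
  have hyx := P.right_inv y hy
  unfold tanSpace
  rw [← tangentConeAt_inter_nhds (P.isOpen.mem_nhds hy.2)]
  refine le_antisymm (Submodule.span_le.2 fun v hv => ?_) ?_
  · have h1 : HasFDerivWithinAt (P.i ∘ P.κ)
        ((fderiv ℝ P.i (P.κ y)).comp (fderiv ℝ P.κ y)) (S ∩ W') y :=
      ((P.hasFDerivAt_i hx).comp y (P.hasFDerivAt_κ hy.2)).hasFDerivWithinAt
    have h2 : HasFDerivWithinAt (P.i ∘ P.κ) (ContinuousLinearMap.id ℝ E) (S ∩ W') y :=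
      (hasFDerivWithinAt_id y _).congr (fun y' hy' => P.right_inv y' hy') (P.right_inv y hy)
    have h3 := h1.unique_on h2 hv
    have h4 : fderiv ℝ P.i (P.κ y) (fderiv ℝ P.κ y v) = v := h3
    exact ⟨_, h4⟩
  · rintro v ⟨ξ, rfl⟩
    refine Submodule.subset_span ?_
    have h1 : HasFDerivWithinAt P.i (fderiv ℝ P.i (P.κ y)) (ball 0 P.ρ) (P.κ y) :=
      (P.hasFDerivAt_i hx).hasFDerivWithinAt
    have h2 := h1.mapsTo_tangent_cone
    rw [P.i_image, hyx] at h2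
    refine h2 ?_
    rw [tangentConeAt_of_mem_nhds (isOpen_ball.mem_nhds hx)]
    exact mem_univ _

end Patch

/-- the intersection with an open set is a smooth submanifold -/
lemma isSmoothSubmanifold_inter {m : ℕ} {S W : Set E} (hS : IsSmoothSubmanifold m S)
    (hW : IsOpen W) : IsSmoothSubmanifold m (S ∩ W) := by
  intro p hp
  obtain ⟨Φ, hpΦ, hΦ, hΦs, L, hL, hSL⟩ := hS p hp.1
  refine ⟨Φ.restrOpen W hW, ⟨hpΦ, hp.2⟩, ?_, ?_, L, hL, ?_⟩
  · exact hΦ.mono inter_subset_left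
  · refine hΦs.mono ?_
    intro z hz
    exact hz.1
  · ext z
    constructor
    · rintro ⟨y, ⟨⟨hy1, hy2⟩, hy3⟩, rfl⟩
      have h1 : Φ y ∈ Φ '' (S ∩ Φ.source) := ⟨y, ⟨hy1, hy3.1⟩, rfl⟩
      rw [hSL] at h1
      exact ⟨h1.1, (Φ.restrOpen W hW).map_source hy3⟩
    · rintro ⟨hz1, hz2⟩
      have h0 := (Φ.restrOpen W hW).map_target hz2
      have h1 : z ∈ Φ '' (S ∩ Φ.source) := by
        rw [hSL]; exact ⟨hz1, hz2.1⟩
      obtain ⟨y, hy, hyz⟩ := h1
      have h2 : (Φ.restrOpen W hW).symm z = y := by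
        show Φ.symm z = y
        rw [← hyz, Φ.left_inv hy.2]
      rw [h2] at h0
      exact ⟨y, ⟨⟨hy.1, h0.2⟩, h0⟩, hyz⟩

end Vale.Agent.P214.CST
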