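import Vale.Agent.P214.CST.Jac

/-! The tangent planes of a varifold supported in a smooth submanifold. -/

open MeasureTheory Set Filter Topology Metric
open scoped ENNReal NNReal ContDiff RealInnerProductSpace

set_option linter.unusedSectionVars false

namespace Vale.Agent.P214.CST

open Vale.Agent.P214

variable {E : Type*} [NormedAddCommGroup E] [InnerProductSpace ℝ E] [FiniteDimensional ℝ E]
  [MeasurableSpace E] [BorelSpace E]

instance isAddHaar (m : ℕ) : (μH[m] : Measure (EuclideanSpace ℝ (Fin m))).IsAddHaarMeasure := by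
  have h1 : ((Module.finrank ℝ (EuclideanSpace ℝ (Fin m)) : ℕ) : ℝ) = m := by simp
  rw [← h1]
  infer_instance

lemma integral_plane_eq {m : ℕ} {T : Submodule ℝ E}
    {ι : EuclideanSpace ℝ (Fin m) →ₗᵢ[ℝ] E} (hι : range ι = (T : Set E))
    {f : E → ℝ} (hf : Continuous f) :
    ∫ y in (T : Set E), f y ∂μH[m] = ∫ p, f (ι p) ∂(μH[m] : Measure (EuclideanSpace ℝ (Fin m))) := by
  have h1 := ι.isometry.map_hausdorffMeasure (d := (m : ℝ)) (Or.inl (Nat.cast_nonneg m))
  rw [← hι, ← h1, integral_map ι.continuous.measurable.aemeasurable hf.aestronglyMeasurable]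

lemma integral_plane_pos {m : ℕ} {T : Submodule ℝ E} (hT : Module.finrank ℝ T = m)
    {f : E → ℝ} (hf : Continuous f) (hc : HasCompactSupport f) (hf0 : ∀ y, 0 ≤ f y)
    {v : E} (hv : v ∈ T) (hfv : f v ≠ 0) :
    0 < ∫ y in (T : Set E), f y ∂μH[m] := by
  obtain ⟨ι, π, hι, hπ, -⟩ := exists_param' (E := E) hT
  rw [integral_plane_eq hι hf]
  have hv' : v ∈ range ι := by rw [hι]; exact hv
  obtain ⟨p, rfl⟩ := hv'
  exact (hf.comp ι.continuous).integral_pos_of_hasCompactSupport_nonneg_nonzero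
    (hc.comp_isClosedEmbedding ι.isometry.isClosedEmbedding) (fun p => hf0 _) (x := p) hfv

namespace Patch

variable {m : ℕ} {S W' U : Set E} (P : Patch m S W') (V : IntegralVarifold m U)

/-- first-order approximation of points of `S` near `y` -/
lemma approx {y : E} (hy : y ∈ S ∩ W') {ε : ℝ} (hε : 0 < ε) :
    ∀ᶠ y' in 𝓝 y, y' ∈ S ∩ W' →
      ‖(y' - y) - fderiv ℝ P.i (P.κ y) (fderiv ℝ P.κ y (y' - y))‖ ≤ ε * ‖y' - y‖ := by
  have hx := P.maps_κ y hy.2
  have h1 : HasFDerivAt (P.i ∘ P.κ) ((fderiv ℝ P.i (P.κ y)).comp (fderiv ℝ P.κ y)) y :=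
    (P.hasFDerivAt_i hx).comp y (P.hasFDerivAt_κ hy.2)
  have h2 := h1.isLittleO.def hε
  filter_upwards [h2] with y' h3 hy'
  simp only [Function.comp_apply, P.right_inv y' hy', P.right_inv y hy] at h3
  exact h3

/-- a.e. point of `W'` lies in the support -/
lemma ae_mem_spt (hU : W' ⊆ U) : ∀ᵐ y ∂V.weight, y ∈ W' → y ∈ V.spt := by
  have h1 := weight_diff_spt_null (V := V) hU
  rw [measure_eq_zero_iff_ae_notMem] at h1
  filter_upwards [h1] with y hy hyW
  by_contra hne
  exact hy ⟨hyW, hne⟩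

include P in
/-- **tangent planes** of a varifold supported in `S` -/
theorem tangent_ae (hU : W' ⊆ U) (hsub : V.spt ∩ W' ⊆ S) :
    ∀ᵐ y ∂V.weight, y ∈ W' → V.tangent y = P.tan (P.κ y) := by
  filter_upwards [V.tangent_spec, V.ae_mem_carrier, ae_mem_spt V hU] with y hy hyc hys hyW
  have hyS : y ∈ S ∩ W' := ⟨hsub ⟨hys hyW, hyW⟩, hyW⟩
  set x := P.κ y with hx
  have hxb : x ∈ ball 0 P.ρ := P.maps_κ y hyW
  have hyx : P.i x = y := P.right_inv y hyS
  obtain ⟨hfin, hlim⟩ := hy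
  refine Submodule.eq_of_le_of_finrank_eq (fun v hv => ?_) (by rw [hfin, P.finrank_tan hxb])
  by_contra hvn
  have hcl : IsClosed (P.tan x : Set E) := (P.tan x).closed_of_finiteDimensional
  obtain ⟨d, hd, hdball⟩ := Metric.mem_nhds_iff.1 (hcl.isOpen_compl.mem_nhds hvn)
  let f : ContDiffBump v := ⟨d / 4, d / 2, by positivity, by linarith⟩
  have hfout : f.rOut = d / 2 := rfl
  have h1 := hlim f f.continuous f.hasCompactSupport
  rw [← V.weight_eq] at h1
  -- vanishing for small `r`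
  have h2 : ∀ᶠ r : ℝ in 𝓝[>] 0, (∫ y', f (r⁻¹ • (y' - y)) ∂V.weight) / r ^ m = 0 := by
    set ε : ℝ := d / (4 * (‖v‖ + d)) with hε
    have hvd : 0 < ‖v‖ + d := by positivity
    have hε0 : 0 < ε := by positivity
    have h3 : ∀ᶠ y' in 𝓝 y, y' ∈ W' ∧ (y' ∈ S ∩ W' →
        ‖(y' - y) - fderiv ℝ P.i (P.κ y) (fderiv ℝ P.κ y (y' - y))‖ ≤ ε * ‖y' - y‖) := by
      filter_upwards [P.isOpen.mem_nhds hyW, P.approx hyS hε0] with y' a b
      exact ⟨a, b⟩
    obtain ⟨η, hη, hηb⟩ := Metric.eventually_nhds_iff.1 h3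
    have h4 : ∀ᶠ r : ℝ in 𝓝[>] 0, r ∈ Ioo (0:ℝ) (η / (‖v‖ + d)) :=
      Ioo_mem_nhdsGT (by positivity)
    filter_upwards [h4] with r hr
    have h5 : (∫ y', f (r⁻¹ • (y' - y)) ∂V.weight) = 0 := by
      refine integral_eq_zero_of_ae ?_
      filter_upwards [ae_mem_spt V hU] with y' hy's
      show f (r⁻¹ • (y' - y)) = 0
      by_contra hne
      set w := r⁻¹ • (y' - y) with hw
      have hwb : w ∈ ball v (d / 2) := by
        have : w ∈ Function.support f := hne
        rwa [f.support_eq, hfout] at this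
      have hyw : y' - y = r • w := by rw [hw, smul_smul, mul_inv_cancel₀ hr.1.ne', one_smul]
      have hwn : ‖w‖ < ‖v‖ + d := by
        have h6 : ‖w‖ ≤ ‖v‖ + ‖w - v‖ := by
          calc ‖w‖ = ‖v + (w - v)‖ := by congr 1; abel
            _ ≤ _ := norm_add_le _ _
        rw [mem_ball, dist_eq_norm] at hwb
        linarith
      have h6 : dist y' y < η := by
        rw [dist_eq_norm, hyw, norm_smul, Real.norm_of_nonneg hr.1.le]
        calc r * ‖w‖ ≤ r * (‖v‖ + d) := by have := hr.1; nlinarith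
          _ < η / (‖v‖ + d) * (‖v‖ + d) := by
              have := hr.2; nlinarith
          _ = η := by field_simp
      have h7 := hηb h6
      have hy'S : y' ∈ S ∩ W' := ⟨hsub ⟨hy's h7.1, h7.1⟩, h7.1⟩
      have h8 := h7.2 hy'S
      rw [hyw, map_smul, map_smul, ← smul_sub, norm_smul, norm_smul,
        Real.norm_of_nonneg hr.1.le] at h8
      have h9 : ‖w - fderiv ℝ P.i (P.κ y) (fderiv ℝ P.κ y w)‖ ≤ ε * ‖w‖ := by
        have := hr.1
        have h10 : r * ‖w - fderiv ℝ P.i (P.κ y) (fderiv ℝ P.κ y w)‖ ≤ r * (ε * ‖w‖) := by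
          linarith
        exact le_of_mul_le_mul_left h10 this
      have h10 : ε * ‖w‖ ≤ d / 4 := by
        have h11 : ε * ‖w‖ ≤ ε * (‖v‖ + d) := by gcongr
        have h12 : ε * (‖v‖ + d) = d / 4 := by rw [hε]; field_simp
        linarith
      set u := fderiv ℝ P.i (P.κ y) (fderiv ℝ P.κ y w) with hu
      have hum : u ∈ P.tan x := P.fderiv_mem_tan _ _
      have hub : u ∈ ball v d := by
        rw [mem_ball, dist_eq_norm]
        rw [mem_ball, dist_eq_norm] at hwb
        calc ‖u - v‖ = ‖(w - v) - (w - u)‖ := by congr 1; abel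
          _ ≤ ‖w - v‖ + ‖w - u‖ := norm_sub_le _ _
          _ < d := by linarith
      exact hdball hub hum
    rw [h5, zero_div]
  have h3 : (V.mult y : ℝ) * ∫ y in (V.tangent y : Set E), f y ∂μH[m] = 0 :=
    tendsto_nhds_unique h1 ((tendsto_congr' h2).2 tendsto_const_nhds)
  have h4 : 0 < ∫ y in (V.tangent y : Set E), f y ∂μH[m] :=
    integral_plane_pos hfin f.continuous f.hasCompactSupport (fun y => f.nonneg) hv
      (by rw [f.one_of_mem_closedBall (mem_closedBall_self f.rIn_pos.le)]; norm_num)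
  have h5 : (0:ℝ) < V.mult y := by exact_mod_cast V.mult_pos y hyc
  exact (mul_pos h5 h4).ne' h3

end Patch

end Vale.Agent.P214.CST
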